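import Vale.Agent.P073.TMD773.Assemble

/-!
# P073, block TM-D: the elementary facts about the discs in the parameter square
-/

open Set Metric Topology Filter

namespace P073.TMD773

open P073 PR720 PA691
open Vale.Agent.P073.St (V IsInv)

variable {Λ : Set V} {v : V} {K : BoxCx Λ v} (s : K.Sizes) {c : ℝ}

theorem Δ_sub (hc : c ∈ Ioo (1/2:ℝ) 1) (d : BoxCx.Sizes.D K) : s.Δ c d ⊆ ball 0 1 := by
  intro y hy
  rcases d with ⟨e, β⟩ | t
  · exact closedBall_subset_ball (by norm_num) (show y ∈ closedBall (0 : P2) (1 / 2) from hy)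
  · have hy' : y ∈ Q0 ∧ s.par c (.inr t) y ∉ s.Hin c := hy
    rw [mem_ball, dist_pi_lt_iff one_pos]
    intro j
    simpa [Real.dist_eq] using ζ_ball s hc t hy'.1 hy'.2 j

theorem center_notMem_H (hc : c ∈ Ioo (1/2:ℝ) 1) (t : K.S) : s.par c (.inr t) 0 ∉ s.H c := by
  have h := center_far (c := c) s t
  rw [mem_H]
  rintro (⟨i, hi⟩ | ⟨e, he⟩)
  · have hr := r_pos s i
    exact h.1 i (closedBall_subset_ball (by nlinarith [hc.2]) hi)
  · have hq := q_pos s e
    exact h.2 e (nb_mono (by nlinarith [hc.2]) he)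

theorem zero_mem (hc : c ∈ Ioo (1/2:ℝ) 1) (d : BoxCx.Sizes.D K) :
    (0 : P2) ∈ s.Δ c d ∧ (0 : P2) ∉ s.ζ c d := by
  rcases d with ⟨e, β⟩ | t
  · refine ⟨show (0 : P2) ∈ closedBall (0 : P2) (1 / 2) from mem_closedBall_self (by norm_num), ?_⟩
    change (0 : P2) ∉ sphere (0 : P2) (1 / 2)
    simp
  · have h := center_notMem_H s hc t
    exact ⟨⟨zero_mem_Q0, fun h' => h (Hin_sub_H s h')⟩, fun h' => h h'.2.1⟩

theorem ζ_sub (hc : c ∈ Ioo (1/2:ℝ) 1) (d : BoxCx.Sizes.D K) :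
    s.par c d '' s.ζ c d ⊆ s.F c := by
  rintro _ ⟨y, hy, rfl⟩
  have := Ann_sub s hc d y hy 0 ⟨by norm_num, by norm_num⟩
  rwa [zero_smul, add_zero] at this

theorem out_in (d : BoxCx.Sizes.D K) (hd : BoxCx.Sizes.out d) :
    (∀ y ∈ s.Δ c d, y ∉ s.ζ c d → s.par c d y ∉ s.H c) ∧
      ∀ y ∈ Q0, y ∉ s.Δ c d → s.par c d y ∈ s.Hin c := by
  rcases d with ⟨e, β⟩ | t
  · exact absurd hd (by simp [BoxCx.Sizes.out])
  · refine ⟨fun y hy hz hH => hz ⟨hy.1, hH, hy.2⟩, fun y hy hn => ?_⟩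
    by_contra h
    exact hn ⟨hy, h⟩

theorem in_in (hc : c ∈ Ioo (1/2:ℝ) 1) (d : BoxCx.Sizes.D K) (hd : ¬ BoxCx.Sizes.out d) :
    (∀ y ∈ s.Δ c d, y ∉ s.ζ c d → s.par c d y ∈ s.Hin c) ∧
      ∀ y ∈ Q0, y ∉ s.Δ c d → s.par c d y ∉ s.H c := by
  have hc0 : 0 < c := by linarith [hc.1]
  rcases d with ⟨e, β⟩ | t
  swap
  · exact absurd trivial hd
  have hq := q_pos s e
  have hcq : 0 < c * s.q e := by positivity
  have ha := r_pos s (K.a e)
  have hb := r_pos s (K.b e)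
  constructor
  · intro y hy hz
    have hy' : y ∈ closedBall (0 : P2) (1 / 2) := hy
    have hz' : y ∉ sphere (0 : P2) (1 / 2) := hz
    have h1 : ∀ j, |y j| < 1 / 2 := by
      intro j
      refine lt_of_le_of_ne (mem_half.1 hy' j) fun h => hz' (mem_sphere_half.2
        ⟨mem_half.1 hy', j, h⟩)
    rw [mem_Hin]
    right
    refine ⟨e, fun k => ?_⟩
    by_cases hk : k = K.dir e
    · subst hk
      rw [par_inl_dir]
      have := lev_bounds s e β
      constructor <;> linarith [this.1, this.2]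
    · rw [← K.ab_off e k hk]
      obtain ⟨j, rfl⟩ := Fin.exists_succAbove_eq hk
      rw [par_inl_succ]
      have h2 := abs_lt.1 (h1 j)
      constructor <;> nlinarith [h2.1, h2.2]
  · intro y hy hn hH
    have hm := par_inl_mid (c := c) s e β y
    have h1 := mem_beam_F s hc (par_inl_nb s hc e β hy) hm.1 hm.2 hH
    apply hn
    change y ∈ closedBall (0 : P2) (1 / 2)
    rw [mem_half]
    intro j
    have h2 := h1 ((K.dir e).succAbove j)
    rw [← K.ab_off e _ (Fin.succAbove_ne _ _), par_inl_succ] at h2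
    rw [abs_le]
    constructor <;> nlinarith [h2.1, h2.2]

/-- everything except the flat discs with notches -/
theorem discFacts_of_ball (hc : c ∈ Ioo (1/2:ℝ) 1) (hB : s.BasicFacts c)
    (h : ∀ d, ConBall 2 (s.Δ c d) (s.ζ c d)) : s.DiscFacts c :=
  discFacts_of s hc hB h (Δ_sub s hc) (zero_mem s hc) (ζ_sub s hc) (out_in s) (in_in s hc)

end P073.TMD773
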