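import Vale.Agent.P073.TMD773.Basic

/-!
# P073, block TM-D: fields of `DiscFacts`
-/

open Set Metric Topology Filter

namespace P073.TMD773

open P073 PR720 PA691
open Vale.Agent.P073.St (V IsInv)

variable {Λ : Set V} {v : V} {K : BoxCx Λ v} (s : K.Sizes) {c : ℝ}

/-- affine map inserting a constant coordinate -/
noncomputable def insAff (k : Fin 3) (t : ℝ) (A B : Fin 2 → ℝ) : P2 →ᴬ[ℝ] V where
  toFun y := Fin.insertNth (α := fun _ => ℝ) k t (fun j => A j + B j * y j)
  linear :=
    { toFun := fun y => Fin.insertNth (α := fun _ => ℝ) k 0 (fun j => B j * y j)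
      map_add' := by
        intro x y
        funext i
        refine Fin.succAboveCases k ?_ (fun j => ?_) i
        · simp
        · simp [mul_add]
      map_smul' := by
        intro a y
        funext i
        refine Fin.succAboveCases k ?_ (fun j => ?_) i
        · simp
        · simp; ring }
  map_vadd' := by
    intro x y
    funext i
    refine Fin.succAboveCases k ?_ (fun j => ?_) i
    · simp
    · simp; ring
  cont := by
    refine continuous_pi fun i => ?_
    refine Fin.succAboveCases k ?_ (fun j => ?_) i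
    · simp only [Fin.insertNth_apply_same]; exact continuous_const
    · simp only [Fin.insertNth_apply_succAbove]; fun_prop

theorem par_inl_dir (e : K.G) (β : Bool) (y : P2) :
    s.par c (.inl (e, β)) y (K.dir e) = if β then s.cb e else s.ca e := by
  simp [BoxCx.Sizes.par]

theorem par_inl_succ (e : K.G) (β : Bool) (y : P2) (j : Fin 2) :
    s.par c (.inl (e, β)) y ((K.dir e).succAbove j) =
      K.w (K.a e) ((K.dir e).succAbove j) + 2 * (c * s.q e) * y j := by
  simp [BoxCx.Sizes.par]

theorem par_inr_nrm (t : K.S) (y : P2) :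
    s.par c (.inr t) y (K.nrm t) = K.slo t (K.nrm t) := by
  simp [BoxCx.Sizes.par]

theorem par_inr_succ (t : K.S) (y : P2) (j : Fin 2) :
    s.par c (.inr t) y ((K.nrm t).succAbove j) =
      (K.slo t ((K.nrm t).succAbove j) + K.shi t ((K.nrm t).succAbove j)) / 2 +
        ((K.shi t ((K.nrm t).succAbove j) - K.slo t ((K.nrm t).succAbove j)) / 2 - s.μ t) * y j := by
  simp [BoxCx.Sizes.par]

theorem mem_Q0 {y : P2} : y ∈ Q0 ↔ ∀ j, |y j| ≤ 1 := by
  rw [mem_closedBall, dist_pi_le_iff zero_le_one]
  simp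

theorem lev_bounds (e : K.G) (β : Bool) :
    K.w (K.a e) (K.dir e) + 5 / 4 * s.r (K.a e) ≤ (if β then s.cb e else s.ca e) ∧
      (if β then s.cb e else s.ca e) ≤ K.w (K.b e) (K.dir e) - 5 / 4 * s.r (K.b e) := by
  have h := ca_lt_cb s e
  cases β
  · exact ⟨le_refl _, h.le⟩
  · exact ⟨h.le, le_refl _⟩

theorem par_affine (d : BoxCx.Sizes.D K) : ∃ ι : P2 →ᴬ[ℝ] V, ∀ y, ι y = s.par c d y := by
  rcases d with ⟨e, β⟩ | t
  · exact ⟨insAff (K.dir e) (if β then s.cb e else s.ca e)
      (fun j => K.w (K.a e) ((K.dir e).succAbove j)) (fun _ => 2 * (c * s.q e)), fun y => rfl⟩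
  · exact ⟨insAff (K.nrm t) (K.slo t (K.nrm t))
      (fun j => (K.slo t ((K.nrm t).succAbove j) + K.shi t ((K.nrm t).succAbove j)) / 2)
      (fun j => ((K.shi t ((K.nrm t).succAbove j) - K.slo t ((K.nrm t).succAbove j)) / 2 - s.μ t)),
      fun y => rfl⟩

theorem half_pos (t : K.S) (j : Fin 2) :
    0 < (K.shi t ((K.nrm t).succAbove j) - K.slo t ((K.nrm t).succAbove j)) / 2 - s.μ t := by
  have := mu_side s t (Fin.succAbove_ne (K.nrm t) j)
  have h2 := s.μ_pos t
  linarith

theorem n_inl_dir (e : K.G) (β : Bool) :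
    s.n (.inl (e, β)) (K.dir e) = if β then s.r (K.b e) / 8 else s.r (K.a e) / 8 := by
  simp [BoxCx.Sizes.n]

theorem n_inl_succ (e : K.G) (β : Bool) (j : Fin 2) :
    s.n (.inl (e, β)) ((K.dir e).succAbove j) = 0 := by
  simp [BoxCx.Sizes.n]

theorem n_inr_nrm (t : K.S) : s.n (.inr t) (K.nrm t) = s.μ t := by
  simp [BoxCx.Sizes.n]

theorem n_inr_succ (t : K.S) (j : Fin 2) : s.n (.inr t) ((K.nrm t).succAbove j) = 0 := by
  simp [BoxCx.Sizes.n]

theorem n_ind (hc : c ∈ Ioo (1/2:ℝ) 1) (d : BoxCx.Sizes.D K) (u u' : P2) (t : ℝ)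
    (h : s.par c d u + t • s.n d = s.par c d u') : t = 0 ∧ u = u' := by
  have hc0 : 0 < c := by linarith [hc.1]
  rcases d with ⟨e, β⟩ | sq
  · have ht : t = 0 := by
      have h1 := congrFun h (K.dir e)
      rw [Pi.add_apply, Pi.smul_apply, par_inl_dir, par_inl_dir, n_inl_dir, smul_eq_mul] at h1
      have h2 : t * (if β then s.r (K.b e) / 8 else s.r (K.a e) / 8) = 0 := by linarith
      rcases mul_eq_zero.1 h2 with h3 | h3
      · exact h3
      · exfalso
        have ha := r_pos s (K.a e)
        have hb := r_pos s (K.b e)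
        cases β
        · simp at h3; linarith
        · simp at h3; linarith
    refine ⟨ht, funext fun j => ?_⟩
    have h1 := congrFun h ((K.dir e).succAbove j)
    rw [ht, zero_smul, add_zero, par_inl_succ, par_inl_succ] at h1
    have hq : 0 < 2 * (c * s.q e) := by have := q_pos s e; positivity
    exact mul_left_cancel₀ hq.ne' (add_left_cancel h1)
  · have ht : t = 0 := by
      have h1 := congrFun h (K.nrm sq)
      rw [Pi.add_apply, Pi.smul_apply, par_inr_nrm, par_inr_nrm, n_inr_nrm, smul_eq_mul] at h1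
      have h2 : t * s.μ sq = 0 := by linarith
      rcases mul_eq_zero.1 h2 with h3 | h3
      · exact h3
      · exact absurd h3 (s.μ_pos sq).ne'
    refine ⟨ht, funext fun j => ?_⟩
    have h1 := congrFun h ((K.nrm sq).succAbove j)
    rw [ht, zero_smul, add_zero, par_inr_succ, par_inr_succ] at h1
    exact mul_left_cancel₀ (half_pos s sq j).ne' (add_left_cancel h1)

/-- points of the beam discs are in the tube, far from the ends -/
theorem par_inl_nb (hc : c ∈ Ioo (1/2:ℝ) 1) (e : K.G) (β : Bool) {y : P2} (hy : y ∈ Q0) :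
    s.par c (.inl (e, β)) y ∈ K.nb e (2 * s.q e) := by
  have hc0 : 0 < c := by linarith [hc.1]
  have hq := q_pos s e
  have ha := r_pos s (K.a e)
  have hb := r_pos s (K.b e)
  intro k
  by_cases hk : k = K.dir e
  · subst hk
    rw [par_inl_dir]
    have := lev_bounds s e β
    constructor <;> linarith [this.1, this.2]
  · obtain ⟨j, rfl⟩ := Fin.exists_succAbove_eq hk
    rw [par_inl_succ, ← K.ab_off e _ hk]
    have h1 := abs_le.1 (mem_Q0.1 hy j)
    constructor <;> nlinarith [h1.1, h1.2, hc.2, mul_pos hc0 hq]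

theorem par_inl_mid (e : K.G) (β : Bool) (y : P2) :
    K.w (K.a e) (K.dir e) + s.r (K.a e) ≤ s.par c (.inl (e, β)) y (K.dir e) ∧
      s.par c (.inl (e, β)) y (K.dir e) ≤ K.w (K.b e) (K.dir e) - s.r (K.b e) := by
  rw [par_inl_dir]
  have ha := r_pos s (K.a e)
  have hb := r_pos s (K.b e)
  have := lev_bounds s e β
  constructor <;> linarith [this.1, this.2]

/-- points of the flat discs are in the open square, with margin `μ` -/
theorem par_inr_bounds (t : K.S) {y : P2} (hy : y ∈ Q0) :
    ∀ k, k ≠ K.nrm t → K.slo t k + s.μ t ≤ s.par c (.inr t) y k ∧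
      s.par c (.inr t) y k ≤ K.shi t k - s.μ t := by
  intro k hk
  obtain ⟨j, rfl⟩ := Fin.exists_succAbove_eq hk
  rw [par_inr_succ]
  have h1 := abs_le.1 (mem_Q0.1 hy j)
  have h2 := half_pos s t j
  constructor <;> nlinarith [h1.1, h1.2]

theorem par_inr_sqo (t : K.S) {y : P2} (hy : y ∈ Q0) : s.par c (.inr t) y ∈ K.sqo t := by
  refine ⟨par_inr_nrm s t y, fun k hk => ?_⟩
  have h1 := par_inr_bounds (c := c) s t hy k hk
  have h2 := s.μ_pos t
  constructor <;> linarith [h1.1, h1.2]

theorem sqo_slab {t : K.S} {x : V} (hx : x ∈ K.sqo t) : x ∈ slab s t := by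
  refine ⟨?_, fun k hk => ⟨(hx.2 k hk).1.le, (hx.2 k hk).2.le⟩⟩
  rw [hx.1, sub_self, abs_zero]
  exact (s.μ_pos t).le

theorem Q_sub (hc : c ∈ Ioo (1/2:ℝ) 1) (d : BoxCx.Sizes.D K) : s.par c d '' Q0 ⊆ Λ := by
  rintro _ ⟨y, hy, rfl⟩
  rcases d with ⟨e, β⟩ | t
  · exact s.tube_sub e (par_inl_nb s hc e β hy)
  · exact K.sub _ (sq_sub_cube t (sqo_sub_sq t (par_inr_sqo s t hy))).1

theorem Q_lf (hc : c ∈ Ioo (1/2:ℝ) 1) : LF (fun d => s.par c d '' Q0) Λ := by
  intro z hz
  obtain ⟨U, hU, hUf⟩ := s.lfTube z hz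
  obtain ⟨U', hU', hUf'⟩ := K.lfS z hz
  refine ⟨U ∩ U', inter_mem hU hU', ?_⟩
  have hfin : (Sum.inl '' ({e | (K.nb e (2 * s.q e) ∩ U).Nonempty} ×ˢ (univ : Set Bool)) ∪
      Sum.inr '' {t | (Icc (K.slo t) (K.shi t) ∩ U').Nonempty} : Set (BoxCx.Sizes.D K)).Finite :=
    ((hUf.prod finite_univ).image _).union (hUf'.image _)
  refine hfin.subset ?_
  rintro d ⟨x, ⟨y, hy, rfl⟩, hxU⟩
  rcases d with ⟨e, β⟩ | t
  · exact Or.inl ⟨(e, β), ⟨⟨_, par_inl_nb s hc e β hy, hxU.1⟩, mem_univ _⟩, rfl⟩
  · exact Or.inr ⟨t, ⟨_, sqo_sub_sq t (par_inr_sqo s t hy), hxU.2⟩, rfl⟩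

theorem Q_disj (hc : c ∈ Ioo (1/2:ℝ) 1) (d d' : BoxCx.Sizes.D K)
    (ho : BoxCx.Sizes.out d ↔ BoxCx.Sizes.out d') (hd : d ≠ d') :
    Disjoint (s.par c d '' Q0) (s.par c d' '' Q0) := by
  rw [Set.disjoint_left]
  rintro _ ⟨y, hy, rfl⟩ ⟨y', hy', h⟩
  rcases d with ⟨e, β⟩ | t
  · rcases d' with ⟨e', β'⟩ | t'
    · have h1 := (mid_tube s (par_inl_nb s hc e β hy) (par_inl_mid s e β y).1
        (par_inl_mid s e β y).2).1 e' (h ▸ par_inl_nb s hc e' β' hy')
      subst h1
      have h2 := congrFun h (K.dir e')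
      rw [par_inl_dir, par_inl_dir] at h2
      have h3 := ca_lt_cb s e'
      cases β <;> cases β'
      · exact hd rfl
      · simp at h2; linarith
      · simp at h2; linarith
      · exact hd rfl
    · simp [BoxCx.Sizes.out] at ho
  · rcases d' with ⟨e', β'⟩ | t'
    · simp [BoxCx.Sizes.out] at ho
    · have h1 := par_inr_sqo (c := c) s t hy
      have h2 := sqo_sub_sq t' (par_inr_sqo (c := c) s t' hy')
      rw [h] at h2
      exact K.sqo_disj t t' (fun h => hd (by rw [h])) _ h1.1 h1.2 h2

theorem edge_nb {e : K.G} {x : V} (hx : x ∈ K.edge e) {t : ℝ} (ht : 0 ≤ t) : x ∈ K.nb e t :=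
  fun k => ⟨by linarith [hx.1 k], by linarith [hx.2 k]⟩

/-- an edge in the square runs in a side of the square -/
theorem edge_side {t : K.S} {e : K.G} (he : K.edge e ⊆ K.sq t) :
    ∃ k, k ≠ K.nrm t ∧ k ≠ K.dir e ∧
      (K.w (K.a e) k = K.slo t k ∨ K.w (K.a e) k = K.shi t k) := by
  have hab := K.ab_dir e
  have hn := edge_nrm he
  have hd : K.dir e ≠ K.nrm t := by
    intro h
    rw [h] at hab
    linarith [hn.1, hn.2]
  set m : V := Function.update (K.w (K.a e)) (K.dir e)
    ((K.w (K.a e) (K.dir e) + K.w (K.b e) (K.dir e)) / 2) with hm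
  have hme : m ∈ K.edge e := by
    constructor
    · intro i
      by_cases hi : i = K.dir e
      · subst hi; rw [hm, Function.update_self]; linarith
      · rw [hm, Function.update_of_ne hi]
    · intro i
      by_cases hi : i = K.dir e
      · subst hi; rw [hm, Function.update_self]; linarith
      · rw [hm, Function.update_of_ne hi]; exact (K.ab_off e i hi).le
  by_contra hcon
  push Not at hcon
  refine K.sqo_edge t m (sq_nrm (he hme)) (fun k hk => ?_) e hme
  by_cases hkd : k = K.dir e
  · subst hkd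
    have h1 := (he (mem_edge_a e)).1 (K.dir e)
    have h2 := (he (mem_edge_b e)).2 (K.dir e)
    rw [hm, Function.update_self]
    constructor <;> linarith
  · rw [hm, Function.update_of_ne hkd]
    have h1 := (he (mem_edge_a e)).1 k
    have h2 := (he (mem_edge_a e)).2 k
    exact ⟨lt_of_le_of_ne h1 (Ne.symm (hcon k hk hkd).1), lt_of_le_of_ne h2 (hcon k hk hkd).2⟩

/-- the square is large compared with the radius at a vertex of it -/
theorem side_vertex {t : K.S} {i : K.W} (hi : K.w i ∈ K.sq t) {k : Fin 3} (hk : k ≠ K.nrm t)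
    (h : K.w i k = K.slo t k ∨ K.w i k = K.shi t k) :
    2 * s.r i ≤ K.shi t k - K.slo t k := by
  have hr := r_pos s i
  have hself : K.w i ∈ closedBall (K.w i) (2 * s.r i) := mem_closedBall_self (by linarith)
  have hlt := K.s_lt t k hk
  have hsq := sq_sub_cube t hi
  have hm := (s.U_tile i (K.sm t) (K.w i) hself hsq.1).2
  have hp := (s.U_tile i (K.sp t) (K.w i) hself hsq.2).2
  -- the moved vertex
  have hlo : K.slo t ∈ K.sq t := ⟨le_refl _, fun j => by
    by_cases hj : j = K.nrm t
    · subst hj; exact (K.s_flat t).le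
    · exact (K.s_lt t j hj).le⟩
  have hhi : K.shi t ∈ K.sq t := ⟨fun j => by
    by_cases hj : j = K.nrm t
    · subst hj; exact (K.s_flat t).le
    · exact (K.s_lt t j hj).le, le_refl _⟩
  have hL := sq_sub_cube t hlo
  have hR := sq_sub_cube t hhi
  rcases h with h | h
  · have h1 : K.w i k + 2 * s.r i < K.hi (K.sm t) k :=
      (hm k).2 (by have := hR.1.2 k; intro h'; linarith)
    have h2 : K.w i k + 2 * s.r i < K.hi (K.sp t) k :=
      (hp k).2 (by have := hR.2.2 k; intro h'; linarith)
    have h3 : Function.update (K.w i) k (K.w i k + 2 * s.r i) ∈ K.sq t := by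
      unfold BoxCx.sq
      rw [K.s_eq]
      constructor
      · constructor
        · intro j
          by_cases hj : j = k
          · subst hj; rw [Function.update_self]; linarith [hsq.1.1 j]
          · rw [Function.update_of_ne hj]; exact hsq.1.1 j
        · intro j
          by_cases hj : j = k
          · subst hj; rw [Function.update_self]; exact h1.le
          · rw [Function.update_of_ne hj]; exact hsq.1.2 j
      · constructor
        · intro j
          by_cases hj : j = k
          · subst hj; rw [Function.update_self]; linarith [hsq.2.1 j]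
          · rw [Function.update_of_ne hj]; exact hsq.2.1 j
        · intro j
          by_cases hj : j = k
          · subst hj; rw [Function.update_self]; exact h2.le
          · rw [Function.update_of_ne hj]; exact hsq.2.2 j
    have h4 := h3.2 k
    rw [Function.update_self] at h4
    linarith
  · have h1 : K.lo (K.sm t) k < K.w i k - 2 * s.r i :=
      (hm k).1 (by have := hL.1.1 k; intro h'; linarith)
    have h2 : K.lo (K.sp t) k < K.w i k - 2 * s.r i :=
      (hp k).1 (by have := hL.2.1 k; intro h'; linarith)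
    have h3 : Function.update (K.w i) k (K.w i k - 2 * s.r i) ∈ K.sq t := by
      unfold BoxCx.sq
      rw [K.s_eq]
      constructor
      · constructor
        · intro j
          by_cases hj : j = k
          · subst hj; rw [Function.update_self]; exact h1.le
          · rw [Function.update_of_ne hj]; exact hsq.1.1 j
        · intro j
          by_cases hj : j = k
          · subst hj; rw [Function.update_self]; linarith [hsq.1.2 j]
          · rw [Function.update_of_ne hj]; exact hsq.1.2 j
      · constructor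
        · intro j
          by_cases hj : j = k
          · subst hj; rw [Function.update_self]; exact h2.le
          · rw [Function.update_of_ne hj]; exact hsq.2.1 j
        · intro j
          by_cases hj : j = k
          · subst hj; rw [Function.update_self]; linarith [hsq.2.2 j]
          · rw [Function.update_of_ne hj]; exact hsq.2.2 j
    have h4 := h3.1 k
    rw [Function.update_self] at h4
    linarith

theorem center_inr (t : K.S) {k : Fin 3} (hk : k ≠ K.nrm t) :
    s.par c (.inr t) 0 k = (K.slo t k + K.shi t k) / 2 := by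
  obtain ⟨j, rfl⟩ := Fin.exists_succAbove_eq hk
  rw [par_inr_succ]; simp

theorem zero_mem_Q0 : (0 : P2) ∈ Q0 := mem_closedBall_self zero_le_one

/-- the centre of a square is in no tube of radius `2 q` and in no cube of radius `r` -/
theorem center_far (t : K.S) :
    (∀ i, s.par c (.inr t) 0 ∉ ball (K.w i) (s.r i)) ∧
      ∀ e, s.par c (.inr t) 0 ∉ K.nb e (2 * s.q e) := by
  set x := s.par c (.inr t) 0 with hx
  have hsl := slab_near s (sqo_slab s (par_inr_sqo (c := c) s t zero_mem_Q0))
  have hmid : ∀ k, k ≠ K.nrm t → x k = (K.slo t k + K.shi t k) / 2 := fun k hk =>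
    center_inr s t hk
  have hV : ∀ i, x ∉ ball (K.w i) (s.r i) := by
    intro i hi
    have hr := r_pos s i
    have h1 : K.w i ∈ K.sq t := s.μ_U t i x
      (ball_subset_closedBall.trans (closedBall_subset_closedBall (by linarith)) hi) hsl
    obtain ⟨e, he, hie⟩ := vertex_sq h1
    obtain ⟨k, hk, hkd, hks⟩ := edge_side he
    have hks' : K.w i k = K.slo t k ∨ K.w i k = K.shi t k := by
      rcases hie with rfl | rfl
      · exact hks
      · rw [← K.ab_off e k hkd]; exact hks
    have h2 := side_vertex s h1 hk hks'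
    rw [mem_ball_iff' hr] at hi
    have h3 := abs_lt.1 (hi k)
    rw [hmid k hk] at h3
    rcases hks' with h4 | h4 <;> rw [h4] at h3 <;> linarith [h3.1, h3.2]
  refine ⟨hV, fun e he => ?_⟩
  have hq := q_pos s e
  have hqle := s.q_le e
  have ha := r_pos s (K.a e)
  have hb := r_pos s (K.b e)
  have h1 := s.μ_tube t e x he hsl
    (fun h => hV _ (ball_subset_ball (by linarith) h))
    (fun h => hV _ (ball_subset_ball (by linarith) h))
  obtain ⟨k, hk, hkd, hks⟩ := edge_side h1
  have h2 := side_vertex s (h1 (mem_edge_a e)) hk hks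
  have h3 := he k
  rw [← K.ab_off e k hkd, hmid k hk] at h3
  rcases hks with h4 | h4 <;> rw [h4] at h3 <;> linarith [h3.1, h3.2, hqle.1]

theorem center (hc : c ∈ Ioo (1/2:ℝ) 1) (d d' : BoxCx.Sizes.D K) (hd : d ≠ d') :
    s.par c d 0 ∉ s.par c d' '' Q0 := by
  rcases d with ⟨e, β⟩ | t
  · rcases d' with ⟨e', β'⟩ | t'
    · exact Set.disjoint_left.1 (Q_disj s hc _ _ (by simp [BoxCx.Sizes.out]) hd)
        (mem_image_of_mem _ zero_mem_Q0)
    · rintro ⟨y, hy, h⟩
      have h1 := par_inr_sqo (c := c) s t' hy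
      rw [h] at h1
      refine K.sqo_edge t' _ h1.1 h1.2 e ?_
      have h2 := lev_bounds s e β
      have ha := r_pos s (K.a e)
      have hb := r_pos s (K.b e)
      constructor
      · intro k
        by_cases hk : k = K.dir e
        · subst hk; rw [par_inl_dir]; linarith [h2.1]
        · obtain ⟨j, rfl⟩ := Fin.exists_succAbove_eq hk
          rw [par_inl_succ]; simp
      · intro k
        by_cases hk : k = K.dir e
        · subst hk; rw [par_inl_dir]; linarith [h2.2]
        · have h3 := K.ab_off e k hk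
          obtain ⟨j, rfl⟩ := Fin.exists_succAbove_eq hk
          rw [par_inl_succ]; simp [h3]
  · rcases d' with ⟨e', β'⟩ | t'
    · rintro ⟨y, hy, h⟩
      exact (center_far (c := c) s t).2 e' (h ▸ par_inl_nb s hc e' β' hy)
    · exact Set.disjoint_left.1 (Q_disj s hc _ _ (by simp [BoxCx.Sizes.out]) hd)
        (mem_image_of_mem _ zero_mem_Q0)

end P073.TMD773
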