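import Vale.Agent.P073.TMD773.Fields3

/-!
# P073, block TM-D: assembly of `DiscFacts` from the facts about the discs in the parameter square
-/

open Set Metric Topology Filter

namespace P073.TMD773

open P073 PR720 PA691
open Vale.Agent.P073.St (V IsInv)

variable {Λ : Set V} {v : V} {K : BoxCx Λ v} (s : K.Sizes) {c : ℝ}

theorem discFacts_of (hc : c ∈ Ioo (1/2:ℝ) 1) (hB : s.BasicFacts c)
    (h1 : ∀ d, ConBall 2 (s.Δ c d) (s.ζ c d)) (h2 : ∀ d, s.Δ c d ⊆ ball 0 1)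
    (h3 : ∀ d, (0 : P2) ∈ s.Δ c d ∧ (0 : P2) ∉ s.ζ c d)
    (h4 : ∀ d, s.par c d '' s.ζ c d ⊆ s.F c)
    (h5 : ∀ d : BoxCx.Sizes.D K, BoxCx.Sizes.out d →
      (∀ y ∈ s.Δ c d, y ∉ s.ζ c d → s.par c d y ∉ s.H c) ∧
        ∀ y ∈ Q0, y ∉ s.Δ c d → s.par c d y ∈ s.Hin c)
    (h6 : ∀ d : BoxCx.Sizes.D K, ¬ BoxCx.Sizes.out d →
      (∀ y ∈ s.Δ c d, y ∉ s.ζ c d → s.par c d y ∈ s.Hin c) ∧
        ∀ y ∈ Q0, y ∉ s.Δ c d → s.par c d y ∉ s.H c) : s.DiscFacts c where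
  par_affine := par_affine s
  n_ind := n_ind s hc
  Q_sub := Q_sub s hc
  Q_lf := Q_lf s hc
  Q_disj := Q_disj s hc
  center := center s hc
  Δ_ball := h1
  Δ_sub := h2
  zero_mem := h3
  ζ_sub := h4
  out_in := h5
  in_in := h6
  Ann_sub := Ann_sub s hc
  Ann_open := Ann_open s hc
  X_eq := X_eq s hc hB
  usedD := usedD s hc hB
  offD := offD s hc hB
  p_ex := p_ex s hc hB

end P073.TMD773
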