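import Vale.Agent.P073.PA691.TMSpec

/-!
# P073, block TM-D: elementary facts on the target model
-/

open Set Metric Topology Filter

namespace P073.TMD773

open P073 PR720 PA691
open Vale.Agent.P073.St (V IsInv)

variable {Λ : Set V} {v : V} {K : BoxCx Λ v} (s : K.Sizes) {c : ℝ}

theorem r_pos (i : K.W) : 0 < s.r i := by
  obtain ⟨n, hn⟩ := s.r_dy i
  rw [hn]; positivity

theorem q_pos (e : K.G) : 0 < s.q e := by
  obtain ⟨n, hn⟩ := s.q_dy e
  rw [hn]; positivity

theorem mem_closedBall_iff {x y : V} {t : ℝ} (ht : 0 ≤ t) :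
    x ∈ closedBall y t ↔ ∀ k, |x k - y k| ≤ t := by
  rw [mem_closedBall, dist_pi_le_iff ht]
  simp [Real.dist_eq]

theorem mem_ball_iff' {x y : V} {t : ℝ} (ht : 0 < t) :
    x ∈ ball y t ↔ ∀ k, |x k - y k| < t := by
  rw [mem_ball, dist_pi_lt_iff ht]
  simp [Real.dist_eq]

theorem a_ne_b (e : K.G) : K.a e ≠ K.b e := by
  intro h
  have := K.ab_dir e
  rw [h] at this
  exact lt_irrefl _ this

/-- the edges are long -/
theorem long (e : K.G) :
    K.w (K.a e) (K.dir e) + 2 * s.r (K.a e) + 2 * s.r (K.b e) < K.w (K.b e) (K.dir e) := by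
  by_contra hc
  push Not at hc
  have ha := r_pos s (K.a e)
  have hb := r_pos s (K.b e)
  have hL := K.ab_dir e
  set L := K.w (K.b e) (K.dir e) - K.w (K.a e) (K.dir e) with hLd
  set x : V := Function.update (K.w (K.a e)) (K.dir e)
    (K.w (K.a e) (K.dir e) + min (2 * s.r (K.a e)) L) with hx
  have h1 : x ∈ closedBall (K.w (K.a e)) (2 * s.r (K.a e)) := by
    rw [mem_closedBall_iff (by positivity)]
    intro k
    by_cases hk : k = K.dir e
    · subst hk
      rw [hx, Function.update_self, add_sub_cancel_left, abs_of_nonneg (le_min (by positivity)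
        (by linarith))]
      exact min_le_left _ _
    · rw [hx, Function.update_of_ne hk, sub_self, abs_zero]; positivity
  have h2 : x ∈ closedBall (K.w (K.b e)) (2 * s.r (K.b e)) := by
    rw [mem_closedBall_iff (by positivity)]
    intro k
    by_cases hk : k = K.dir e
    · subst hk
      rw [hx, Function.update_self, abs_le]
      rcases min_cases (2 * s.r (K.a e)) L with ⟨h, h'⟩ | ⟨h, h'⟩ <;> rw [h] <;>
        constructor <;> linarith
    · rw [hx, Function.update_of_ne hk, K.ab_off e k hk, sub_self, abs_zero]; positivity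
  exact Set.disjoint_left.1 (s.U_disj _ _ (a_ne_b e)) h1 h2

theorem ca_lt_cb (e : K.G) : s.ca e < s.cb e := by
  have := long s e
  have ha := r_pos s (K.a e)
  have hb := r_pos s (K.b e)
  unfold BoxCx.Sizes.ca BoxCx.Sizes.cb
  linarith

/-- a point of a tube whose coordinate is far from the ends is in no other tube, and in no cube -/
theorem mid_tube {e : K.G} {x : V} (hx : x ∈ K.nb e (2 * s.q e))
    (h1 : K.w (K.a e) (K.dir e) + s.r (K.a e) ≤ x (K.dir e))
    (h2 : x (K.dir e) ≤ K.w (K.b e) (K.dir e) - s.r (K.b e)) :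
    (∀ e', x ∈ K.nb e' (2 * s.q e') → e' = e) ∧
      (∀ i t, t ≤ 2 * s.r i → x ∈ closedBall (K.w i) t → (i = K.a e ∧ s.r i ≤ t) ∨
        (i = K.b e ∧ s.r i ≤ t)) := by
  have ha := r_pos s (K.a e)
  have hb := r_pos s (K.b e)
  constructor
  · intro e' he'
    by_contra hne
    obtain ⟨i, hi, -, hxi⟩ := s.tube_disj e e' (Ne.symm hne) x hx he'
    rw [mem_ball_iff' (by have := r_pos s i; positivity)] at hxi
    have h3 := abs_lt.1 (hxi (K.dir e))
    rcases hi with rfl | rfl
    · linarith [h3.1, h3.2]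
    · linarith [h3.1, h3.2]
  · intro i t ht hxi
    have hri := r_pos s i
    have h0 : 0 ≤ t := dist_nonneg.trans (mem_closedBall.1 hxi)
    have h3 := s.U_edge i e x (closedBall_subset_closedBall ht hxi) hx
    rw [mem_closedBall_iff h0] at hxi
    have h4 := abs_le.1 (hxi (K.dir e))
    rcases h3 with rfl | rfl
    · left; exact ⟨rfl, by linarith [h4.1, h4.2]⟩
    · right; exact ⟨rfl, by linarith [h4.1, h4.2]⟩

/-- not in the open neighbourhood of the graph -/
theorem notMem_Hin {x : V} : x ∉ s.Hin c ↔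
    (∀ i, x ∉ ball (K.w i) (c * s.r i)) ∧ ∀ e, x ∉ K.nbo e (c * s.q e) := by
  simp [BoxCx.Sizes.Hin]

theorem mem_H {x : V} : x ∈ s.H c ↔
    (∃ i, x ∈ closedBall (K.w i) (c * s.r i)) ∨ ∃ e, x ∈ K.nb e (c * s.q e) := by
  simp [BoxCx.Sizes.H, BoxCx.Sizes.box, BoxCx.Sizes.beam]

theorem mem_Hin {x : V} : x ∈ s.Hin c ↔
    (∃ i, x ∈ ball (K.w i) (c * s.r i)) ∨ ∃ e, x ∈ K.nbo e (c * s.q e) := by
  simp [BoxCx.Sizes.Hin]

theorem Hin_sub_H : s.Hin c ⊆ s.H c := by
  intro x hx
  rw [mem_Hin] at hx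
  rw [mem_H]
  rcases hx with ⟨i, hi⟩ | ⟨e, he⟩
  · exact Or.inl ⟨i, ball_subset_closedBall hi⟩
  · exact Or.inr ⟨e, fun k => ⟨(he k).1.le, (he k).2.le⟩⟩

theorem nb_mono {e : K.G} {t t' : ℝ} (h : t ≤ t') : K.nb e t ⊆ K.nb e t' :=
  fun _ hx k => ⟨by linarith [(hx k).1], by linarith [(hx k).2]⟩

theorem nbo_sub_nb {e : K.G} {t t' : ℝ} (h : t ≤ t') : K.nbo e t ⊆ K.nb e t' :=
  fun _ hx k => ⟨by linarith [(hx k).1], by linarith [(hx k).2]⟩

/-- points near a point of an edge -/
theorem near_edge {e : K.G} {x x₀ : V} (h₀ : x₀ ∈ K.edge e)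
    (h : ∀ k, |x k - x₀ k| < c * s.q e) : x ∈ s.Hin c := by
  rw [mem_Hin]
  right
  refine ⟨e, fun k => ?_⟩
  have h1 := abs_lt.1 (h k)
  have h2 := h₀.1 k
  have h3 := h₀.2 k
  constructor <;> linarith [h1.1, h1.2]

/-! ### squares -/

theorem sq_sub_cube (t : K.S) : K.sq t ⊆ K.cube (K.sm t) ∩ K.cube (K.sp t) := by
  unfold BoxCx.sq BoxCx.cube
  rw [← K.s_eq]

theorem sqo_sub_sq (t : K.S) : K.sqo t ⊆ K.sq t := by
  intro x hx
  constructor
  · intro k
    by_cases hk : k = K.nrm t
    · subst hk; exact hx.1.ge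
    · exact (hx.2 k hk).1.le
  · intro k
    by_cases hk : k = K.nrm t
    · subst hk; rw [← K.s_flat]; exact hx.1.le
    · exact (hx.2 k hk).2.le

theorem sq_nrm {t : K.S} {x : V} (hx : x ∈ K.sq t) : x (K.nrm t) = K.slo t (K.nrm t) :=
  le_antisymm ((hx.2 _).trans (K.s_flat t).ge) (hx.1 _)

theorem fin3_third : ∀ j k d n : Fin 3, j ≠ n → k ≠ n → k ≠ j → d ≠ n → d ≠ k → d = j := by
  decide

/-- an edge in the square which meets a side in an inner point of the side is parallel to it -/
theorem exists_edge_dir (t : K.S) {j : Fin 3} (hj : j ≠ K.nrm t) :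
    ∃ e, K.edge e ⊆ K.sq t ∧ K.dir e = j := by
  -- the third direction
  obtain ⟨k, hk, hkj⟩ : ∃ k : Fin 3, k ≠ K.nrm t ∧ k ≠ j := by
    revert hj
    generalize K.nrm t = n
    revert j n
    decide
  set x : V := Function.update (fun i => (K.slo t i + K.shi t i) / 2) k (K.slo t k) with hx
  have hxk : x k = K.slo t k := by rw [hx, Function.update_self]
  have hxo : ∀ i, i ≠ k → x i = (K.slo t i + K.shi t i) / 2 := fun i hi => by
    rw [hx, Function.update_of_ne hi]
  have hle : ∀ i, K.slo t i ≤ K.shi t i := fun i => by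
    by_cases hi : i = K.nrm t
    · subst hi; exact (K.s_flat t).le
    · exact (K.s_lt t i hi).le
  have hxs : x ∈ Icc (K.slo t) (K.shi t) := by
    constructor
    · intro i
      by_cases hi : i = k
      · subst hi; exact hxk.ge
      · rw [hxo i hi]; linarith [hle i]
    · intro i
      by_cases hi : i = k
      · subst hi; rw [hxk]; exact hle _
      · rw [hxo i hi]; linarith [hle i]
  obtain ⟨e, he, hxe⟩ := K.sq_bd t x hxs ⟨k, hk, Or.inl hxk⟩
  refine ⟨e, he, ?_⟩
  have hab := K.ab_dir e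
  have haE : K.w (K.a e) ∈ Icc (K.w (K.a e)) (K.w (K.b e)) := by
    refine ⟨le_refl _, fun i => ?_⟩
    by_cases hi : i = K.dir e
    · subst hi; exact hab.le
    · exact (K.ab_off e i hi).le
  have hbE : K.w (K.b e) ∈ Icc (K.w (K.a e)) (K.w (K.b e)) := by
    refine ⟨fun i => ?_, le_refl _⟩
    by_cases hi : i = K.dir e
    · subst hi; exact hab.le
    · exact (K.ab_off e i hi).le
  -- not normal
  have h1 : K.dir e ≠ K.nrm t := by
    intro h
    have h2 := sq_nrm (he haE)
    have h3 := sq_nrm (he hbE)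
    rw [h] at hab
    linarith
  -- not `k`
  have h2 : K.dir e ≠ k := by
    intro h
    -- the midpoint between `x` and the upper end is in the open square
    set y : V := Function.update x k ((K.slo t k + K.w (K.b e) k) / 2) with hy
    have hwb : K.slo t k < K.w (K.b e) k := by
      have h3 := (he haE).1 k
      rw [h] at hab
      exact lt_of_le_of_lt h3 hab
    have hwb' : K.w (K.b e) k ≤ K.shi t k := (he hbE).2 k
    refine K.sqo_edge t y ?_ ?_ e ?_
    · rw [hy, Function.update_of_ne (Ne.symm hk)]; exact sq_nrm hxs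
    · intro i hi
      by_cases hik : i = k
      · subst hik
        rw [hy, Function.update_self]
        constructor <;> linarith [K.s_lt t i hi]
      · rw [hy, Function.update_of_ne hik, hxo i hik]
        have := K.s_lt t i hi
        constructor <;> linarith
    · constructor
      · intro i
        by_cases hik : i = k
        · subst hik
          rw [hy, Function.update_self]
          have := hxe.1 i
          rw [hxk] at this
          linarith
        · rw [hy, Function.update_of_ne hik]; exact hxe.1 i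
      · intro i
        by_cases hik : i = k
        · subst hik
          rw [hy, Function.update_self]
          linarith
        · rw [hy, Function.update_of_ne hik]; exact hxe.2 i
  exact fin3_third _ _ _ _ hj hk hkj h1 h2

theorem mem_edge_a (e : K.G) : K.w (K.a e) ∈ K.edge e := by
  refine ⟨le_refl _, fun i => ?_⟩
  by_cases hi : i = K.dir e
  · subst hi; exact (K.ab_dir e).le
  · exact (K.ab_off e i hi).le

theorem mem_edge_b (e : K.G) : K.w (K.b e) ∈ K.edge e := by
  refine ⟨fun i => ?_, le_refl _⟩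
  by_cases hi : i = K.dir e
  · subst hi; exact (K.ab_dir e).le
  · exact (K.ab_off e i hi).le

/-- the margin is small compared with the sides -/
theorem mu_side (t : K.S) {j : Fin 3} (hj : j ≠ K.nrm t) :
    64 * s.μ t < K.shi t j - K.slo t j := by
  obtain ⟨e, he, rfl⟩ := exists_edge_dir t hj
  have h1 := s.μ_lt t e he
  have h2 := s.q_le e
  have h3 := long s e
  have h4 := (he (mem_edge_a e)).1 (K.dir e)
  have h5 := (he (mem_edge_b e)).2 (K.dir e)
  have h6 := r_pos s (K.b e)
  have h7 := r_pos s (K.a e)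
  linarith [h2.1, h2.2]

/-- a vertex in the square is the end of an edge in the square -/
theorem vertex_sq {t : K.S} {i : K.W} (hi : K.w i ∈ K.sq t) :
    ∃ e, K.edge e ⊆ K.sq t ∧ (i = K.a e ∨ i = K.b e) := by
  obtain ⟨e', he'⟩ := K.w_edge i
  have hie : K.w i ∈ K.edge e' := by
    rcases he' with rfl | rfl
    · exact mem_edge_a e'
    · exact mem_edge_b e'
  have hb : ∃ k, k ≠ K.nrm t ∧ (K.w i k = K.slo t k ∨ K.w i k = K.shi t k) := by
    by_contra hcon
    push Not at hcon
    refine K.sqo_edge t (K.w i) (sq_nrm hi) (fun k hk => ?_) e' hie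
    have h1 := hi.1 k
    have h2 := hi.2 k
    exact ⟨lt_of_le_of_ne h1 (Ne.symm (hcon k hk).1), lt_of_le_of_ne h2 (hcon k hk).2⟩
  obtain ⟨e, he, hx⟩ := K.sq_bd t (K.w i) hi hb
  exact ⟨e, he, K.w_on_edge i e hx⟩

theorem mu_vertex {t : K.S} {i : K.W} (hi : K.w i ∈ K.sq t) : 32 * s.μ t < s.r i := by
  obtain ⟨e, he, h⟩ := vertex_sq hi
  have h1 := s.μ_lt t e he
  have h2 := s.q_le e
  rcases h with rfl | rfl
  · linarith [h2.1]
  · linarith [h2.2]

/-- the slab over the square -/
def slab (t : K.S) : Set V :=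
  {x | |x (K.nrm t) - K.slo t (K.nrm t)| ≤ s.μ t ∧
    ∀ k, k ≠ K.nrm t → K.slo t k ≤ x k ∧ x k ≤ K.shi t k}

theorem slab_near {t : K.S} {x : V} (hx : x ∈ slab s t) :
    ∀ k, K.slo t k - 2 * s.μ t ≤ x k ∧ x k ≤ K.shi t k + 2 * s.μ t := by
  intro k
  have hμ := s.μ_pos t
  by_cases hk : k = K.nrm t
  · subst hk
    have h1 := abs_le.1 hx.1
    rw [← K.s_flat t]
    constructor <;> linarith [h1.1, h1.2]
  · have := hx.2 k hk
    constructor <;> linarith [this.1, this.2]

theorem edge_nrm {t : K.S} {e : K.G} (he : K.edge e ⊆ K.sq t) :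
    K.w (K.a e) (K.nrm t) = K.slo t (K.nrm t) ∧ K.w (K.b e) (K.nrm t) = K.slo t (K.nrm t) :=
  ⟨sq_nrm (he (mem_edge_a e)), sq_nrm (he (mem_edge_b e))⟩

/-- vertical invariance -/
theorem slab_Hin (hc : c ∈ Ioo (1/2:ℝ) 1) {t : K.S} {x x' : V} (hx : x ∈ slab s t)
    (hx' : x' ∈ slab s t) (h : ∀ k, k ≠ K.nrm t → x k = x' k) (hin : x ∈ s.Hin c) :
    x' ∈ s.Hin c := by
  have key : ∀ i, x ∈ ball (K.w i) (c * s.r i) → x' ∈ s.Hin c := by
    intro i hi
    have hr := r_pos s i
    have hcr : 0 < c * s.r i := mul_pos (by linarith [hc.1]) hr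
    have h1 : K.w i ∈ K.sq t := s.μ_U t i x (by
      refine (ball_subset_ball ?_).trans ball_subset_closedBall hi
      nlinarith [hc.2]) (slab_near s hx)
    have h2 := mu_vertex s h1
    rw [mem_Hin]
    left
    refine ⟨i, ?_⟩
    rw [mem_ball_iff' hcr] at hi ⊢
    intro k
    by_cases hk : k = K.nrm t
    · subst hk
      rw [sq_nrm h1]
      refine lt_of_le_of_lt hx'.1 ?_
      nlinarith [hc.1, s.μ_pos t]
    · rw [← h k hk]; exact hi k
  rw [mem_Hin] at hin
  rcases hin with ⟨i, hi⟩ | ⟨e, he⟩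
  · exact key i hi
  · have hq := q_pos s e
    have he2 : x ∈ K.nb e (2 * s.q e) := nbo_sub_nb (by nlinarith [hc.2]) he
    have hsm : ∀ i, x ∈ ball (K.w i) (s.r i / 2) → x' ∈ s.Hin c := fun i hi =>
      key i (ball_subset_ball (by nlinarith [hc.1, r_pos s i]) hi)
    by_cases ha : x ∈ ball (K.w (K.a e)) (s.r (K.a e) / 2)
    · exact hsm _ ha
    by_cases hb : x ∈ ball (K.w (K.b e)) (s.r (K.b e) / 2)
    · exact hsm _ hb
    have h1 := s.μ_tube t e x he2 (slab_near s hx) ha hb
    have h2 := edge_nrm h1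
    have h3 := s.μ_lt t e h1
    rw [mem_Hin]
    right
    refine ⟨e, fun k => ?_⟩
    by_cases hk : k = K.nrm t
    · subst hk
      rw [h2.1, h2.2]
      have h4 := abs_le.1 hx'.1
      have h5 : s.μ t < c * s.q e := by nlinarith [hc.1, s.μ_pos t]
      constructor <;> linarith [h4.1, h4.2]
    · rw [← h k hk]; exact he k

theorem slab_H (hc : c ∈ Ioo (1/2:ℝ) 1) {t : K.S} {x x' : V} (hx : x ∈ slab s t)
    (hx' : x' ∈ slab s t) (h : ∀ k, k ≠ K.nrm t → x k = x' k) (hin : x ∈ s.H c) :
    x' ∈ s.H c := by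
  have key : ∀ i, x ∈ closedBall (K.w i) (c * s.r i) → x' ∈ s.H c := by
    intro i hi
    have hr := r_pos s i
    have hcr : 0 < c * s.r i := mul_pos (by linarith [hc.1]) hr
    have h1 : K.w i ∈ K.sq t := s.μ_U t i x (by
      refine closedBall_subset_closedBall ?_ hi
      nlinarith [hc.2]) (slab_near s hx)
    have h2 := mu_vertex s h1
    rw [mem_H]
    left
    refine ⟨i, ?_⟩
    rw [mem_closedBall_iff hcr.le] at hi ⊢
    intro k
    by_cases hk : k = K.nrm t
    · subst hk
      rw [sq_nrm h1]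
      refine hx'.1.trans ?_
      nlinarith [hc.1, s.μ_pos t]
    · rw [← h k hk]; exact hi k
  rw [mem_H] at hin
  rcases hin with ⟨i, hi⟩ | ⟨e, he⟩
  · exact key i hi
  · have hq := q_pos s e
    have he2 : x ∈ K.nb e (2 * s.q e) := nb_mono (by nlinarith [hc.2]) he
    have hsm : ∀ i, x ∈ ball (K.w i) (s.r i / 2) → x' ∈ s.H c := fun i hi =>
      key i (closedBall_subset_closedBall (by nlinarith [hc.1, r_pos s i])
        (ball_subset_closedBall hi))
    by_cases ha : x ∈ ball (K.w (K.a e)) (s.r (K.a e) / 2)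
    · exact hsm _ ha
    by_cases hb : x ∈ ball (K.w (K.b e)) (s.r (K.b e) / 2)
    · exact hsm _ hb
    have h1 := s.μ_tube t e x he2 (slab_near s hx) ha hb
    have h2 := edge_nrm h1
    have h3 := s.μ_lt t e h1
    rw [mem_H]
    right
    refine ⟨e, fun k => ?_⟩
    by_cases hk : k = K.nrm t
    · subst hk
      rw [h2.1, h2.2]
      have h4 := abs_le.1 hx'.1
      have h5 : s.μ t < c * s.q e := by nlinarith [hc.1, s.μ_pos t]
      constructor <;> linarith [h4.1, h4.2]
    · rw [← h k hk]; exact he k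

theorem slab_F (hc : c ∈ Ioo (1/2:ℝ) 1) {t : K.S} {x x' : V} (hx : x ∈ slab s t)
    (hx' : x' ∈ slab s t) (h : ∀ k, k ≠ K.nrm t → x k = x' k) (hF : x ∈ s.F c) :
    x' ∈ s.F c :=
  ⟨slab_H s hc hx hx' h hF.1, fun h' => hF.2 (slab_Hin s hc hx' hx
    (fun k hk => (h k hk).symm) h')⟩

/-- points of the square within `μ` of its boundary are inside `H` -/
theorem near_bd (hc : c ∈ Ioo (1/2:ℝ) 1) {t : K.S} {x : V} (hx : x ∈ K.sq t) {k : Fin 3}
    (hk : k ≠ K.nrm t) (h : x k ≤ K.slo t k + s.μ t ∨ K.shi t k - s.μ t ≤ x k) :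
    x ∈ s.Hin c := by
  have hμ := s.μ_pos t
  obtain ⟨y, hy, hyk, hd⟩ : ∃ y ∈ K.sq t, (y k = K.slo t k ∨ y k = K.shi t k) ∧
      ∀ i, |x i - y i| ≤ s.μ t := by
    rcases h with h | h
    · refine ⟨Function.update x k (K.slo t k), ?_, Or.inl (Function.update_self ..), ?_⟩
      · constructor
        · intro i
          by_cases hi : i = k
          · subst hi; rw [Function.update_self]
          · rw [Function.update_of_ne hi]; exact hx.1 i
        · intro i
          by_cases hi : i = k
          · subst hi; rw [Function.update_self]; exact (K.s_lt t i hk).le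
          · rw [Function.update_of_ne hi]; exact hx.2 i
      · intro i
        by_cases hi : i = k
        · subst hi; rw [Function.update_self, abs_of_nonneg (by linarith [hx.1 i])]; linarith
        · rw [Function.update_of_ne hi, sub_self, abs_zero]; exact hμ.le
    · refine ⟨Function.update x k (K.shi t k), ?_, Or.inr (Function.update_self ..), ?_⟩
      · constructor
        · intro i
          by_cases hi : i = k
          · subst hi; rw [Function.update_self]; exact (K.s_lt t i hk).le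
          · rw [Function.update_of_ne hi]; exact hx.1 i
        · intro i
          by_cases hi : i = k
          · subst hi; rw [Function.update_self]
          · rw [Function.update_of_ne hi]; exact hx.2 i
      · intro i
        by_cases hi : i = k
        · subst hi; rw [Function.update_self, abs_of_nonpos (by linarith [hx.2 i])]; linarith
        · rw [Function.update_of_ne hi, sub_self, abs_zero]; exact hμ.le
  obtain ⟨e, he, hye⟩ := K.sq_bd t y hy ⟨k, hk, hyk⟩
  refine near_edge s hye (fun i => lt_of_le_of_lt (hd i) ?_)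
  have := s.μ_lt t e he
  nlinarith [hc.1, q_pos s e]

end P073.TMD773
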