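import Vale.Agent.P073.TMD773.Fields

/-!
# P073, block TM-D: fields of `DiscFacts`, second part
-/

open Set Metric Topology Filter

namespace P073.TMD773

open P073 PR720 PA691
open Vale.Agent.P073.St (V IsInv)

variable {Λ : Set V} {v : V} {K : BoxCx Λ v} (s : K.Sizes) {c : ℝ}

theorem mem_half {y : P2} : y ∈ closedBall (0 : P2) (1 / 2) ↔ ∀ j, |y j| ≤ 1 / 2 := by
  rw [mem_closedBall, dist_pi_le_iff (by norm_num)]
  simp

theorem mem_sphere_half {y : P2} :
    y ∈ sphere (0 : P2) (1 / 2) ↔ (∀ j, |y j| ≤ 1 / 2) ∧ ∃ j, |y j| = 1 / 2 := by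
  rw [← closedBall_sdiff_ball, Set.mem_sdiff, mem_half, mem_ball, dist_pi_lt_iff (by norm_num)]
  constructor
  · rintro ⟨h1, h2⟩
    push Not at h2
    obtain ⟨j, hj⟩ := h2
    refine ⟨h1, j, le_antisymm (h1 j) ?_⟩
    simpa [Real.dist_eq] using hj
  · rintro ⟨h1, j, hj⟩
    refine ⟨h1, fun h => ?_⟩
    have := h j
    simp only [Real.dist_eq, Pi.zero_apply, sub_zero] at this
    linarith

/-- the inverse parameter in the beam discs -/
noncomputable def prm (c : ℝ) (e : K.G) (x : V) : P2 := fun j =>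
  (x ((K.dir e).succAbove j) - K.w (K.a e) ((K.dir e).succAbove j)) / (2 * (c * s.q e))

theorem par_prm (hc : c ∈ Ioo (1/2:ℝ) 1) (e : K.G) (β : Bool) (x : V) :
    ∀ k, k ≠ K.dir e → s.par c (.inl (e, β)) (prm s c e x) k = x k := by
  intro k hk
  have hc0 : 0 < c := by linarith [hc.1]
  have hq : 0 < 2 * (c * s.q e) := by have := q_pos s e; positivity
  obtain ⟨j, rfl⟩ := Fin.exists_succAbove_eq hk
  rw [par_inl_succ, prm, mul_div_cancel₀ _ hq.ne']
  ring

theorem par_prm_eq (hc : c ∈ Ioo (1/2:ℝ) 1) (e : K.G) (β : Bool) {x : V}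
    (hx : x (K.dir e) = if β then s.cb e else s.ca e) :
    s.par c (.inl (e, β)) (prm s c e x) = x := by
  funext k
  by_cases hk : k = K.dir e
  · subst hk; rw [par_inl_dir, hx]
  · exact par_prm s hc e β x k hk

theorem prm_half (hc : c ∈ Ioo (1/2:ℝ) 1) {e : K.G} {x : V} (hx : x ∈ K.nb e (c * s.q e)) :
    prm s c e x ∈ closedBall (0 : P2) (1 / 2) := by
  have hc0 : 0 < c := by linarith [hc.1]
  have hq : 0 < 2 * (c * s.q e) := by have := q_pos s e; positivity
  rw [mem_half]
  intro j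
  have h1 := hx ((K.dir e).succAbove j)
  rw [← K.ab_off e _ (Fin.succAbove_ne _ _)] at h1
  rw [prm, abs_div, abs_of_pos hq, div_le_iff₀ hq, abs_le]
  constructor <;> linarith [h1.1, h1.2]

theorem prm_sphere (hc : c ∈ Ioo (1/2:ℝ) 1) {e : K.G} {x : V} (hx : x ∈ K.nb e (c * s.q e))
    (hin : x ∉ K.nbo e (c * s.q e))
    (h1 : K.w (K.a e) (K.dir e) ≤ x (K.dir e)) (h2 : x (K.dir e) ≤ K.w (K.b e) (K.dir e)) :
    prm s c e x ∈ sphere (0 : P2) (1 / 2) := by
  have hc0 : 0 < c := by linarith [hc.1]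
  have hq0 := q_pos s e
  have hq : 0 < 2 * (c * s.q e) := by positivity
  rw [mem_sphere_half]
  refine ⟨mem_half.1 (prm_half s hc hx), ?_⟩
  by_contra hcon
  push Not at hcon
  refine hin fun k => ?_
  have hcq : 0 < c * s.q e := by positivity
  by_cases hk : k = K.dir e
  · subst hk
    constructor <;> linarith
  · rw [← K.ab_off e k hk]
    obtain ⟨j, rfl⟩ := Fin.exists_succAbove_eq hk
    have h3 := lt_of_le_of_ne (mem_half.1 (prm_half s hc hx) j) (hcon j)
    rw [prm, abs_div, abs_of_pos hq, div_lt_iff₀ hq] at h3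
    have h4 := abs_lt.1 h3
    constructor <;> linarith [h4.1, h4.2]

/-- the beam, far from the ends -/
theorem mem_F_beam (hc : c ∈ Ioo (1/2:ℝ) 1) {e : K.G} {x : V}
    (h1 : K.w (K.a e) (K.dir e) + s.r (K.a e) ≤ x (K.dir e))
    (h2 : x (K.dir e) ≤ K.w (K.b e) (K.dir e) - s.r (K.b e))
    (hx : x ∈ K.nb e (c * s.q e)) (hno : x ∉ K.nbo e (c * s.q e)) : x ∈ s.F c := by
  have hq := q_pos s e
  have hmid := mid_tube s (nb_mono (by nlinarith [hc.2]) hx) h1 h2
  refine ⟨(mem_H s).2 (Or.inr ⟨e, hx⟩), ?_⟩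
  rw [notMem_Hin]
  constructor
  · intro i hi
    have hr := r_pos s i
    rcases hmid.2 i (c * s.r i) (by nlinarith [hc.2]) (ball_subset_closedBall hi) with
      ⟨-, h⟩ | ⟨-, h⟩ <;> nlinarith [hc.2]
  · intro e' he'
    have hq' := q_pos s e'
    have h3 := hmid.1 e' (nbo_sub_nb (by nlinarith [hc.2]) he')
    subst h3
    exact hno he'

theorem mem_beam_F (hc : c ∈ Ioo (1/2:ℝ) 1) {e : K.G} {x : V} (hx : x ∈ K.nb e (2 * s.q e))
    (h1 : K.w (K.a e) (K.dir e) + s.r (K.a e) ≤ x (K.dir e))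
    (h2 : x (K.dir e) ≤ K.w (K.b e) (K.dir e) - s.r (K.b e)) (hH : x ∈ s.H c) :
    x ∈ K.nb e (c * s.q e) := by
  have hmid := mid_tube s hx h1 h2
  rcases (mem_H s).1 hH with ⟨i, hi⟩ | ⟨e', he'⟩
  · exfalso
    have hr := r_pos s i
    rcases hmid.2 i (c * s.r i) (by nlinarith [hc.2]) hi with ⟨-, h⟩ | ⟨-, h⟩ <;>
      nlinarith [hc.2]
  · have hq' := q_pos s e'
    have h3 := hmid.1 e' (nb_mono (by nlinarith [hc.2]) he')
    subst h3
    exact he'

theorem F_not_nbo {e : K.G} {x : V} (hx : x ∈ s.F c) : x ∉ K.nbo e (c * s.q e) :=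
  fun h => hx.2 ((mem_Hin s).2 (Or.inr ⟨e, h⟩))

/-- the boundary circles of the beam discs are outside the open beam -/
theorem par_sphere_nbo (hc : c ∈ Ioo (1/2:ℝ) 1) (e : K.G) {y : P2}
    (hy : y ∈ sphere (0 : P2) (1 / 2)) {x : V}
    (hx : ∀ j, x ((K.dir e).succAbove j) =
      K.w (K.a e) ((K.dir e).succAbove j) + 2 * (c * s.q e) * y j) :
    x ∉ K.nbo e (c * s.q e) := by
  intro h
  have hc0 : 0 < c := by linarith [hc.1]
  have hq := q_pos s e
  have hcq : 0 < c * s.q e := by positivity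
  obtain ⟨-, j, hj⟩ := mem_sphere_half.1 hy
  have h1 := h ((K.dir e).succAbove j)
  rw [← K.ab_off e _ (Fin.succAbove_ne _ _), hx j] at h1
  rcases abs_cases (y j) with ⟨h2, -⟩ | ⟨h2, -⟩
  · have h3 : y j = 1 / 2 := by linarith
    rw [h3] at h1
    linarith [h1.2]
  · have h3 : y j = -(1 / 2) := by linarith
    rw [h3] at h1
    linarith [h1.1]

theorem par_half_nb (hc : c ∈ Ioo (1/2:ℝ) 1) (e : K.G) {y : P2}
    (hy : y ∈ closedBall (0 : P2) (1 / 2)) {x : V}
    (hx : ∀ j, x ((K.dir e).succAbove j) =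
      K.w (K.a e) ((K.dir e).succAbove j) + 2 * (c * s.q e) * y j)
    (h1 : K.w (K.a e) (K.dir e) ≤ x (K.dir e)) (h2 : x (K.dir e) ≤ K.w (K.b e) (K.dir e)) :
    x ∈ K.nb e (c * s.q e) := by
  have hc0 : 0 < c := by linarith [hc.1]
  have hq := q_pos s e
  have hcq : 0 < c * s.q e := by positivity
  intro k
  by_cases hk : k = K.dir e
  · subst hk; constructor <;> linarith
  · rw [← K.ab_off e k hk]
    obtain ⟨j, rfl⟩ := Fin.exists_succAbove_eq hk
    rw [hx j]
    have h3 := abs_le.1 (mem_half.1 hy j)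
    constructor <;> nlinarith [h3.1, h3.2]

theorem shift_inl_succ (e : K.G) (β : Bool) (y : P2) (t : ℝ) (j : Fin 2) :
    (s.par c (.inl (e, β)) y + t • s.n (.inl (e, β))) ((K.dir e).succAbove j) =
      K.w (K.a e) ((K.dir e).succAbove j) + 2 * (c * s.q e) * y j := by
  rw [Pi.add_apply, Pi.smul_apply, par_inl_succ, n_inl_succ, smul_zero, add_zero]

theorem shift_inl_dir (e : K.G) (β : Bool) (y : P2) (t : ℝ) :
    (s.par c (.inl (e, β)) y + t • s.n (.inl (e, β))) (K.dir e) =
      (if β then s.cb e else s.ca e) +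
        t * (if β then s.r (K.b e) / 8 else s.r (K.a e) / 8) := by
  rw [Pi.add_apply, Pi.smul_apply, par_inl_dir, n_inl_dir, smul_eq_mul]

/-- the vertical part of the beam disc is far from the ends -/
theorem shift_mid (e : K.G) (β : Bool) {t : ℝ} (ht : t ∈ Icc (-1:ℝ) 1) :
    K.w (K.a e) (K.dir e) + s.r (K.a e) ≤ (if β then s.cb e else s.ca e) +
        t * (if β then s.r (K.b e) / 8 else s.r (K.a e) / 8) ∧
    (if β then s.cb e else s.ca e) +
        t * (if β then s.r (K.b e) / 8 else s.r (K.a e) / 8) ≤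
      K.w (K.b e) (K.dir e) - s.r (K.b e) := by
  have ha := r_pos s (K.a e)
  have hb := r_pos s (K.b e)
  have hl := long s e
  cases β
  · simp only [Bool.false_eq_true, if_false, BoxCx.Sizes.ca]
    constructor <;> nlinarith [ht.1, ht.2]
  · simp only [if_true, BoxCx.Sizes.cb]
    constructor <;> nlinarith [ht.1, ht.2]

theorem shift_inr_nrm (t : K.S) (y : P2) (τ : ℝ) :
    (s.par c (.inr t) y + τ • s.n (.inr t)) (K.nrm t) = K.slo t (K.nrm t) + τ * s.μ t := by
  rw [Pi.add_apply, Pi.smul_apply, par_inr_nrm, n_inr_nrm, smul_eq_mul]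

theorem shift_inr_off (t : K.S) (y : P2) (τ : ℝ) {k : Fin 3} (hk : k ≠ K.nrm t) :
    (s.par c (.inr t) y + τ • s.n (.inr t)) k = s.par c (.inr t) y k := by
  obtain ⟨j, rfl⟩ := Fin.exists_succAbove_eq hk
  rw [Pi.add_apply, Pi.smul_apply, n_inr_succ, smul_zero, add_zero]

theorem shift_slab (t : K.S) {y : P2} (hy : y ∈ Q0) {τ : ℝ} (hτ : τ ∈ Icc (-1:ℝ) 1) :
    s.par c (.inr t) y + τ • s.n (.inr t) ∈ slab s t := by
  have hμ := s.μ_pos t
  refine ⟨?_, fun k hk => ?_⟩
  · rw [shift_inr_nrm, add_sub_cancel_left, abs_mul, abs_of_pos hμ]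
    have : |τ| ≤ 1 := abs_le.2 hτ
    nlinarith
  · rw [shift_inr_off s t y τ hk]
    have := par_inr_bounds (c := c) s t hy k hk
    constructor <;> linarith [this.1, this.2]

theorem Ann_sub (hc : c ∈ Ioo (1/2:ℝ) 1) (d : BoxCx.Sizes.D K) (y : P2) (hy : y ∈ s.ζ c d)
    (t : ℝ) (ht : t ∈ Icc (-1:ℝ) 1) : s.par c d y + t • s.n d ∈ s.F c := by
  rcases d with ⟨e, β⟩ | sq
  · have hy' : y ∈ sphere (0 : P2) (1 / 2) := hy
    have hm := shift_mid s e β ht
    have ha := r_pos s (K.a e)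
    have hb := r_pos s (K.b e)
    rw [← shift_inl_dir (c := c) s e β y t] at hm
    refine mem_F_beam s hc hm.1 hm.2 (par_half_nb s hc e (sphere_subset_closedBall hy')
      (fun j => shift_inl_succ s e β y t j) (by linarith [hm.1]) (by linarith [hm.2]))
      (par_sphere_nbo s hc e hy' (fun j => shift_inl_succ s e β y t j))
  · have hy' : y ∈ Q0 ∧ s.par c (.inr sq) y ∈ s.F c := hy
    exact slab_F s hc (sqo_slab s (par_inr_sqo s sq hy'.1)) (shift_slab s sq hy'.1 ht)
      (fun k hk => (shift_inr_off s sq y t hk).symm) hy'.2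

/-- points of the parameter square near its boundary are mapped into the interior of `H` -/
theorem ζ_ball (hc : c ∈ Ioo (1/2:ℝ) 1) (t : K.S) {y : P2} (hy : y ∈ Q0)
    (h : s.par c (.inr t) y ∉ s.Hin c) (j : Fin 2) : |y j| < 1 := by
  refine lt_of_le_of_ne (mem_Q0.1 hy j) fun hj => h ?_
  have hsq := sqo_sub_sq t (par_inr_sqo (c := c) s t hy)
  refine near_bd s hc hsq (Fin.succAbove_ne (K.nrm t) j) ?_
  rw [par_inr_succ]
  rcases abs_cases (y j) with ⟨h2, -⟩ | ⟨h2, -⟩
  · right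
    have h3 : y j = 1 := by linarith
    rw [h3]; linarith
  · left
    have h3 : y j = -1 := by linarith
    rw [h3]; linarith

theorem par_inr_strict (t : K.S) {y : P2} (hy : ∀ j, |y j| < 1) :
    ∀ k, k ≠ K.nrm t → K.slo t k + s.μ t < s.par c (.inr t) y k ∧
      s.par c (.inr t) y k < K.shi t k - s.μ t := by
  intro k hk
  obtain ⟨j, rfl⟩ := Fin.exists_succAbove_eq hk
  rw [par_inr_succ]
  have h1 := abs_lt.1 (hy j)
  have h2 := half_pos s t j
  constructor <;> nlinarith [h1.1, h1.2]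

/-- the inverse parameter in the squares -/
noncomputable def prs (t : K.S) (x : V) : P2 := fun j =>
  (x ((K.nrm t).succAbove j) -
    (K.slo t ((K.nrm t).succAbove j) + K.shi t ((K.nrm t).succAbove j)) / 2) /
    ((K.shi t ((K.nrm t).succAbove j) - K.slo t ((K.nrm t).succAbove j)) / 2 - s.μ t)

theorem par_prs (t : K.S) (x : V) :
    ∀ k, k ≠ K.nrm t → s.par c (.inr t) (prs s t x) k = x k := by
  intro k hk
  obtain ⟨j, rfl⟩ := Fin.exists_succAbove_eq hk
  have h := half_pos s t j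
  rw [par_inr_succ, prs, mul_div_cancel₀ _ h.ne']
  ring

theorem par_prs_eq {t : K.S} {x : V} (hx : x (K.nrm t) = K.slo t (K.nrm t)) :
    s.par c (.inr t) (prs s t x) = x := by
  funext k
  by_cases hk : k = K.nrm t
  · subst hk; rw [par_inr_nrm, hx]
  · exact par_prs s t x k hk

theorem prs_mem {t : K.S} {x : V}
    (hx : ∀ k, k ≠ K.nrm t → K.slo t k + s.μ t ≤ x k ∧ x k ≤ K.shi t k - s.μ t) :
    prs s t x ∈ Q0 := by
  rw [mem_Q0]
  intro j
  have h := half_pos s t j
  have h1 := hx _ (Fin.succAbove_ne (K.nrm t) j)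
  rw [prs, abs_div, abs_of_pos h, div_le_one h, abs_le]
  constructor <;> linarith [h1.1, h1.2]

theorem Ann_open (hc : c ∈ Ioo (1/2:ℝ) 1) (d : BoxCx.Sizes.D K) : ∃ U : Set V, IsOpen U ∧
    U ∩ s.F c = {x | ∃ y ∈ s.ζ c d, ∃ t ∈ Ioo (-1:ℝ) 1, x = s.par c d y + t • s.n d} := by
  rcases d with ⟨e, β⟩ | sq
  · have ha := r_pos s (K.a e)
    have hb := r_pos s (K.b e)
    have hq := q_pos s e
    have hc0 : 0 < c := by linarith [hc.1]
    have hcq : 0 < c * s.q e := by positivity
    set ρ : ℝ := if β then s.r (K.b e) / 8 else s.r (K.a e) / 8 with hρ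
    have hρ0 : 0 < ρ := by rw [hρ]; split_ifs <;> linarith
    set l : ℝ := if β then s.cb e else s.ca e with hl
    refine ⟨{x | |x (K.dir e) - l| < ρ} ∩ K.nbo e (2 * s.q e), ?_, ?_⟩
    · refine IsOpen.inter (isOpen_lt (by fun_prop) continuous_const) ?_
      have : K.nbo e (2 * s.q e) = ⋂ k : Fin 3, {x : V | K.w (K.a e) k - 2 * s.q e < x k} ∩
          {x : V | x k < K.w (K.b e) k + 2 * s.q e} := by
        ext x; simp [BoxCx.nbo]
      rw [this]
      exact isOpen_iInter_of_finite fun k => (isOpen_lt continuous_const (continuous_apply k)).inter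
        (isOpen_lt (continuous_apply k) continuous_const)
    · ext x
      constructor
      · rintro ⟨⟨hx1, hx2⟩, hxF⟩
        have hx1 : |x (K.dir e) - l| < ρ := hx1
        set t := (x (K.dir e) - l) / ρ with ht
        have ht1 : |t| < 1 := by rw [ht, abs_div, abs_of_pos hρ0, div_lt_one hρ0]; exact hx1
        have htx : x (K.dir e) = l + t * ρ := by rw [ht]; field_simp; ring
        have hm := shift_mid s e β (t := t) ⟨(abs_lt.1 ht1).1.le, (abs_lt.1 ht1).2.le⟩
        rw [← hρ, ← hl, ← htx] at hm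
        have h1 := mem_beam_F s hc (nbo_sub_nb (le_refl _) hx2) hm.1 hm.2 hxF.1
        have h2 := prm_sphere s hc h1 (F_not_nbo s hxF) (by linarith [hm.1]) (by linarith [hm.2])
        refine ⟨prm s c e x, h2, t, abs_lt.1 ht1, ?_⟩
        funext k
        by_cases hk : k = K.dir e
        · subst hk; rw [shift_inl_dir, ← hρ, ← hl, htx]
        · have h3 := par_prm s hc e β x k hk
          obtain ⟨j, rfl⟩ := Fin.exists_succAbove_eq hk
          rw [shift_inl_succ, ← par_inl_succ s e β, h3]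
      · rintro ⟨y, hy, t, ht, rfl⟩
        have hy' : y ∈ sphere (0 : P2) (1 / 2) := hy
        have hF := Ann_sub s hc (.inl (e, β)) y hy t ⟨ht.1.le, ht.2.le⟩
        refine ⟨⟨?_, ?_⟩, hF⟩
        · change |(s.par c (.inl (e, β)) y + t • s.n (.inl (e, β))) (K.dir e) - l| < ρ
          rw [shift_inl_dir, ← hρ, ← hl, add_sub_cancel_left, abs_mul, abs_of_pos hρ0]
          have : |t| < 1 := abs_lt.2 ht
          nlinarith
        · have hm := shift_mid s e β (t := t) ⟨ht.1.le, ht.2.le⟩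
          rw [← shift_inl_dir (c := c) s e β y t] at hm
          have h1 := par_half_nb s hc e (sphere_subset_closedBall hy')
            (fun j => shift_inl_succ s e β y t j) (by linarith [hm.1]) (by linarith [hm.2])
          intro k
          have h2 := h1 k
          have h3 : c * s.q e < 2 * s.q e := by nlinarith [hc.2]
          constructor <;> linarith [h2.1, h2.2]
  · have hμ := s.μ_pos sq
    refine ⟨{x | |x (K.nrm sq) - K.slo sq (K.nrm sq)| < s.μ sq} ∩
      ⋂ (k : Fin 3), {x : V | k ≠ K.nrm sq → K.slo sq k + s.μ sq < x k ∧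
        x k < K.shi sq k - s.μ sq}, ?_, ?_⟩
    · refine IsOpen.inter (isOpen_lt (by fun_prop) continuous_const) ?_
      refine isOpen_iInter_of_finite fun k => ?_
      by_cases hk : k = K.nrm sq
      · simp [hk]
      · have : {x : V | k ≠ K.nrm sq → K.slo sq k + s.μ sq < x k ∧ x k < K.shi sq k - s.μ sq} =
            {x : V | K.slo sq k + s.μ sq < x k} ∩ {x : V | x k < K.shi sq k - s.μ sq} := by
          ext x; simp [hk]
        rw [this]
        exact (isOpen_lt continuous_const (continuous_apply k)).inter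
          (isOpen_lt (continuous_apply k) continuous_const)
    · ext x
      constructor
      · rintro ⟨⟨hx1, hx2⟩, hxF⟩
        have hx1 : |x (K.nrm sq) - K.slo sq (K.nrm sq)| < s.μ sq := hx1
        have hx2 : ∀ k, k ≠ K.nrm sq → K.slo sq k + s.μ sq < x k ∧ x k < K.shi sq k - s.μ sq := by
          intro k; exact mem_iInter.1 hx2 k
        set t := (x (K.nrm sq) - K.slo sq (K.nrm sq)) / s.μ sq with ht
        have ht1 : |t| < 1 := by rw [ht, abs_div, abs_of_pos hμ, div_lt_one hμ]; exact hx1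
        have hyQ : prs s sq x ∈ Q0 := prs_mem s fun k hk => ⟨(hx2 k hk).1.le, (hx2 k hk).2.le⟩
        have hxe : x = s.par c (.inr sq) (prs s sq x) + t • s.n (.inr sq) := by
          funext k
          by_cases hk : k = K.nrm sq
          · subst hk; rw [shift_inr_nrm, ht]; field_simp; ring
          · rw [shift_inr_off s sq _ t hk, par_prs s sq x k hk]
        refine ⟨prs s sq x, ⟨hyQ, ?_⟩, t, abs_lt.1 ht1, hxe⟩
        refine slab_F s hc (x := x) ?_ (sqo_slab s (par_inr_sqo s sq hyQ))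
          (fun k hk => (par_prs s sq x k hk).symm) hxF
        refine ⟨hx1.le, fun k hk => ?_⟩
        have := hx2 k hk
        constructor <;> linarith [this.1, this.2]
      · rintro ⟨y, hy, t, ht, rfl⟩
        have hF := Ann_sub s hc (.inr sq) y hy t ⟨ht.1.le, ht.2.le⟩
        have hy' : y ∈ Q0 ∧ s.par c (.inr sq) y ∈ s.F c := hy
        refine ⟨⟨?_, ?_⟩, hF⟩
        · change |(s.par c (.inr sq) y + t • s.n (.inr sq)) (K.nrm sq) -
            K.slo sq (K.nrm sq)| < s.μ sq
          rw [shift_inr_nrm, add_sub_cancel_left, abs_mul, abs_of_pos hμ]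
          have : |t| < 1 := abs_lt.2 ht
          nlinarith
        · rw [mem_iInter]
          intro k hk
          rw [shift_inr_off s sq y t hk]
          exact par_inr_strict s sq (fun j => ζ_ball s hc sq hy'.1 hy'.2.2 j) k hk

end P073.TMD773
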