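import Vale.Agent.P073.TMD773.Fields2

/-!
# P073, block TM-D: fields of `DiscFacts`, third part
-/

open Set Metric Topology Filter

namespace P073.TMD773

open P073 PR720 PA691
open Vale.Agent.P073.St (V IsInv)

variable {Λ : Set V} {v : V} {K : BoxCx Λ v} (s : K.Sizes) {c : ℝ}

theorem edge_sub_Hin (hc : c ∈ Ioo (1/2:ℝ) 1) {e : K.G} {x : V} (hx : x ∈ K.edge e) :
    x ∈ s.Hin c := by
  have hc0 : 0 < c := by linarith [hc.1]
  have hq := q_pos s e
  have hcq : 0 < c * s.q e := by positivity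
  exact near_edge s hx fun k => by rw [sub_self, abs_zero]; exact hcq

/-- points of the beam discs are in the middle cell -/
theorem inl_RG (hc : c ∈ Ioo (1/2:ℝ) 1) (e : K.G) (β : Bool) {y : P2}
    (hy : y ∈ closedBall (0 : P2) (1 / 2)) :
    s.par c (.inl (e, β)) y ∈ s.RG c e ∧
      s.par c (.inl (e, β)) y (K.dir e) = (if β then s.cb e else s.ca e) := by
  have h1 := lev_bounds s e β
  have ha := r_pos s (K.a e)
  have hb := r_pos s (K.b e)
  have hcc := ca_lt_cb s e
  refine ⟨⟨par_half_nb s hc e hy (fun j => par_inl_succ s e β y j)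
    (by rw [par_inl_dir]; linarith [h1.1]) (by rw [par_inl_dir]; linarith [h1.2]), ?_, ?_⟩,
    par_inl_dir s e β y⟩
  · rw [par_inl_dir]; cases β
    · exact le_refl _
    · exact hcc.le
  · rw [par_inl_dir]; cases β
    · exact hcc.le
    · exact le_refl _

theorem inl_frontier (hc : c ∈ Ioo (1/2:ℝ) 1) (hB : s.BasicFacts c) (e : K.G) (β : Bool) :
    s.par c (.inl (e, β)) '' s.Δ c (.inl (e, β)) ⊆ frontier (s.RG c e) := by
  rintro _ ⟨y, hy, rfl⟩
  have h := inl_RG s hc e β (y := y) hy
  rw [hB.frG]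
  refine ⟨h.1, Or.inr ?_⟩
  cases β
  · exact Or.inl h.2
  · exact Or.inr h.2

theorem inl_frontier_V (hc : c ∈ Ioo (1/2:ℝ) 1) (hB : s.BasicFacts c) (e : K.G) (β : Bool) :
    s.par c (.inl (e, β)) '' s.Δ c (.inl (e, β)) ⊆
      frontier (s.RV c (if β then K.b e else K.a e)) := by
  rintro _ ⟨y, hy, rfl⟩
  have h := inl_RG s hc e β (y := y) hy
  rw [hB.frV]
  cases β
  · refine ⟨Or.inl (Or.inr ?_), Or.inr (Or.inl ⟨e, rfl, h.1.1, h.2⟩)⟩
    exact mem_iUnion₂.2 ⟨e, rfl, h.1.1, h.2.le⟩
  · refine ⟨Or.inr ?_, Or.inr (Or.inr ⟨e, rfl, h.1.1, h.2⟩)⟩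
    exact mem_iUnion₂.2 ⟨e, rfl, h.1.1, h.2.ge⟩

theorem inr_frontier (hB : s.BasicFacts c) (t : K.S) :
    s.par c (.inr t) '' s.Δ c (.inr t) ⊆ frontier (s.RT c (K.sm t)) ∧
      s.par c (.inr t) '' s.Δ c (.inr t) ⊆ frontier (s.RT c (K.sp t)) := by
  constructor
  · rintro _ ⟨y, hy, rfl⟩
    have hy' : y ∈ Q0 ∧ s.par c (.inr t) y ∉ s.Hin c := hy
    have h1 := sq_sub_cube t (sqo_sub_sq t (par_inr_sqo (c := c) s t hy'.1))
    rw [hB.frT]
    refine ⟨⟨h1.1, hy'.2⟩, Or.inr ⟨K.nrm t, Or.inr ?_⟩⟩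
    rw [par_inr_nrm, (K.s_lev t).1]
  · rintro _ ⟨y, hy, rfl⟩
    have hy' : y ∈ Q0 ∧ s.par c (.inr t) y ∉ s.Hin c := hy
    have h1 := sq_sub_cube t (sqo_sub_sq t (par_inr_sqo (c := c) s t hy'.1))
    rw [hB.frT]
    refine ⟨⟨h1.2, hy'.2⟩, Or.inr ⟨K.nrm t, Or.inl ?_⟩⟩
    rw [par_inr_nrm, (K.s_lev t).2]

/-- a point outside the interior of `H` in the open square is in the flat disc -/
theorem sqo_disc (hc : c ∈ Ioo (1/2:ℝ) 1) {t : K.S} {x : V} (hx : x ∈ K.sqo t)
    (hn : x ∉ s.Hin c) : x ∈ s.par c (.inr t) '' s.Δ c (.inr t) := by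
  have hQ : prs s t x ∈ Q0 := prs_mem s fun k hk => by
    by_contra hcon
    have h1 : x k ≤ K.slo t k + s.μ t ∨ K.shi t k - s.μ t ≤ x k := by
      by_contra h2
      push Not at h2
      exact hcon ⟨h2.1.le, h2.2.le⟩
    exact hn (near_bd s hc (sqo_sub_sq t hx) hk h1)
  have he : s.par c (.inr t) (prs s t x) = x := par_prs_eq s hx.1
  exact ⟨prs s t x, ⟨hQ, by rw [he]; exact hn⟩, he⟩

theorem X_eq (hc : c ∈ Ioo (1/2:ℝ) 1) (hB : s.BasicFacts c) :
    ⋃ j, frontier (s.R c j) = s.F c ∪ ⋃ d, s.par c d '' s.Δ c d := by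
  apply Subset.antisymm
  · intro x hx
    rw [mem_iUnion] at hx
    obtain ⟨j, hj⟩ := hx
    by_cases hF : x ∈ s.F c
    · exact Or.inl hF
    right
    rw [mem_iUnion]
    rcases j with p | i | e
    · have hj : x ∈ frontier (s.RT c p) := hj
      rw [hB.frT] at hj
      obtain ⟨⟨hxp, hxn⟩, h⟩ := hj
      have hk := h.resolve_left hF
      obtain ⟨t, -, h1, h2⟩ := K.face_cover p x hxp hk (fun e he => hxn (edge_sub_Hin s hc he))
      exact ⟨.inr t, sqo_disc s hc ⟨h1, h2⟩ hxn⟩
    · have hj : x ∈ frontier (s.RV c i) := hj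
      rw [hB.frV] at hj
      obtain ⟨hxi, h⟩ := hj
      rcases h.resolve_left hF with ⟨e, he, hb, hd⟩ | ⟨e, he, hb, hd⟩
      · exact ⟨.inl (e, false), prm s c e x, prm_half s hc hb, par_prm_eq s hc e false hd⟩
      · exact ⟨.inl (e, true), prm s c e x, prm_half s hc hb, par_prm_eq s hc e true hd⟩
    · have hj : x ∈ frontier (s.RG c e) := hj
      rw [hB.frG] at hj
      obtain ⟨⟨hb, -, -⟩, h⟩ := hj
      rcases h.resolve_left hF with hd | hd
      · exact ⟨.inl (e, false), prm s c e x, prm_half s hc hb, par_prm_eq s hc e false hd⟩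
      · exact ⟨.inl (e, true), prm s c e x, prm_half s hc hb, par_prm_eq s hc e true hd⟩
  · rintro x (hx | hx)
    · have h1 : x ∈ ⋃ j, s.R c j := by rw [hB.cover]; exact hB.H_sub hx.1
      rw [mem_iUnion] at h1 ⊢
      obtain ⟨j, hj⟩ := h1
      refine ⟨j, ?_⟩
      rcases j with p | i | e
      · change x ∈ frontier (s.RT c p)
        rw [hB.frT]; exact ⟨hj, Or.inl hx⟩
      · change x ∈ frontier (s.RV c i)
        rw [hB.frV]; exact ⟨hj, Or.inl hx⟩
      · change x ∈ frontier (s.RG c e)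
        rw [hB.frG]; exact ⟨hj, Or.inl hx⟩
    · rw [mem_iUnion] at hx ⊢
      obtain ⟨d, hd⟩ := hx
      rcases d with ⟨e, β⟩ | t
      · exact ⟨.inr (.inr e), inl_frontier s hc hB e β hd⟩
      · exact ⟨.inl (K.sm t), (inr_frontier s hB t).1 hd⟩

theorem usedD (hc : c ∈ Ioo (1/2:ℝ) 1) (hB : s.BasicFacts c) (d : BoxCx.Sizes.D K) :
    ∃ j, s.par c d '' s.Δ c d ⊆ frontier (s.R c j) := by
  rcases d with ⟨e, β⟩ | t
  · exact ⟨.inr (.inr e), inl_frontier s hc hB e β⟩
  · exact ⟨.inl (K.sm t), (inr_frontier s hB t).1⟩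

/-- the cell of a vertex and of an edge are in `H` -/
theorem RV_sub (i : K.W) : s.RV c i ⊆ s.H c := by
  rintro x ((hx | hx) | hx)
  · exact (mem_H s).2 (Or.inl ⟨i, hx⟩)
  · obtain ⟨e, -, h⟩ := mem_iUnion₂.1 hx
    exact (mem_H s).2 (Or.inr ⟨e, h.1⟩)
  · obtain ⟨e, -, h⟩ := mem_iUnion₂.1 hx
    exact (mem_H s).2 (Or.inr ⟨e, h.1⟩)

theorem RG_sub (e : K.G) : s.RG c e ⊆ s.H c := fun _ hx => (mem_H s).2 (Or.inr ⟨e, hx.1⟩)

theorem offD (hc : c ∈ Ioo (1/2:ℝ) 1) (hB : s.BasicFacts c) (d : BoxCx.Sizes.D K)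
    (j : K.T ⊕ K.W ⊕ K.G) (hd : ¬ s.par c d '' s.Δ c d ⊆ frontier (s.R c j)) :
    s.par c d '' s.Δ c d ∩ s.R c j ⊆ s.par c d '' s.ζ c d := by
  rcases d with ⟨e, β⟩ | t
  · rintro _ ⟨⟨y, hy, rfl⟩, hxj⟩
    have hy' : y ∈ closedBall (0 : P2) (1 / 2) := hy
    have hyQ : y ∈ Q0 := closedBall_subset_closedBall (by norm_num) hy'
    have h0 := inl_RG s hc e β hy'
    have hnb := par_inl_nb s hc e β hyQ
    have hm := par_inl_mid (c := c) s e β y
    have hmid := mid_tube s hnb hm.1 hm.2
    have hq := q_pos s e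
    rcases j with p | i | e'
    · -- in a tile: outside the interior of `H`
      have hxj' : s.par c (.inl (e, β)) y ∉ s.Hin c := hxj.2
      refine ⟨y, ?_, rfl⟩
      change y ∈ sphere (0 : P2) (1 / 2)
      have hsp := prm_sphere s hc h0.1.1
        (fun h => hxj' ((mem_Hin s).2 (Or.inr ⟨e, h⟩)))
        (by have := r_pos s (K.a e); linarith [hm.1])
        (by have := r_pos s (K.b e); linarith [hm.2])
      have : prm s c e (s.par c (.inl (e, β)) y) = y := by
        have hpar := par_prm_eq s hc e β h0.2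
        exact (n_ind s hc (.inl (e, β)) _ _ 0 (by rw [zero_smul, add_zero]; exact hpar)).2
      rw [← this]; exact hsp
    · exfalso
      apply hd
      have hi : i = if β then K.b e else K.a e := by
        have hcc := ca_lt_cb s e
        rcases hxj with (hx | hx) | hx
        · exfalso
          have hr := r_pos s i
          rcases hmid.2 i (c * s.r i) (by nlinarith [hc.2]) hx with ⟨-, h⟩ | ⟨-, h⟩ <;>
            nlinarith [hc.2]
        · obtain ⟨e', he', h⟩ := mem_iUnion₂.1 hx
          have h1 := hmid.1 e' (nb_mono (by nlinarith [hc.2, q_pos s e']) h.1)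
          subst h1
          have h2 : s.par c (.inl (e', β)) y (K.dir e') ≤ s.ca e' := h.2
          rw [h0.2] at h2
          cases β
          · exact he'.symm
          · exfalso; simp at h2; linarith
        · obtain ⟨e', he', h⟩ := mem_iUnion₂.1 hx
          have h1 := hmid.1 e' (nb_mono (by nlinarith [hc.2, q_pos s e']) h.1)
          subst h1
          have h2 : s.cb e' ≤ s.par c (.inl (e', β)) y (K.dir e') := h.2
          rw [h0.2] at h2
          cases β
          · exfalso; simp at h2; linarith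
          · exact he'.symm
      subst hi
      exact inl_frontier_V s hc hB e β
    · exfalso
      apply hd
      have hxe : s.par c (.inl (e, β)) y ∈ K.nb e' (c * s.q e') := hxj.1
      have h1 := hmid.1 e' (nb_mono (by nlinarith [hc.2, q_pos s e']) hxe)
      subst h1
      exact inl_frontier s hc hB e' β
  · rintro _ ⟨⟨y, hy, rfl⟩, hxj⟩
    have hy' : y ∈ Q0 ∧ s.par c (.inr t) y ∉ s.Hin c := hy
    have key : s.par c (.inr t) y ∈ s.H c →
        s.par c (.inr t) y ∈ s.par c (.inr t) '' s.ζ c (.inr t) := fun h =>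
      ⟨y, ⟨hy'.1, h, hy'.2⟩, rfl⟩
    rcases j with p | i | e'
    · exfalso
      apply hd
      have h1 := par_inr_sqo (c := c) s t hy'.1
      rcases K.sqo_tile t p _ h1.1 h1.2 hxj.1 with rfl | rfl
      · exact (inr_frontier s hB t).1
      · exact (inr_frontier s hB t).2
    · exact key (RV_sub s i hxj)
    · exact key (RG_sub s e' hxj)

/-- the centre of a tile is far from `H` -/
theorem tile_center (p : K.T) :
    (∀ i, (fun k => (K.lo p k + K.hi p k) / 2) ∉ ball (K.w i) (s.r i)) ∧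
      ∀ e, (fun k => (K.lo p k + K.hi p k) / 2) ∉ K.nb e (2 * s.q e) := by
  set x : V := fun k => (K.lo p k + K.hi p k) / 2 with hx
  have hxp : x ∈ K.cube p := by
    constructor
    · intro k; simp only [hx]; linarith [K.lt p k]
    · intro k; simp only [hx]; linarith [K.lt p k]
  have hV : ∀ i, x ∉ ball (K.w i) (s.r i) := by
    intro i hi
    have hr := r_pos s i
    have hU := s.U_tile i p x
      (ball_subset_closedBall.trans (closedBall_subset_closedBall (by linarith)) hi) hxp
    obtain ⟨k, hk⟩ := K.w_tile i p hU.1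
    have h1 := K.lt p k
    rw [mem_ball_iff' hr] at hi
    have h2 := abs_lt.1 (hi k)
    simp only [hx] at h2
    rcases hk with hk | hk
    · have h3 := (hU.2 k).2 (by rw [hk]; exact h1.ne)
      rw [hk] at h2 h3
      linarith [h2.1, h2.2]
    · have h3 := (hU.2 k).1 (by rw [hk]; exact h1.ne')
      rw [hk] at h2 h3
      linarith [h2.1, h2.2]
  refine ⟨hV, fun e he => ?_⟩
  have hq := q_pos s e
  have hqle := s.q_le e
  have ha := r_pos s (K.a e)
  have hb := r_pos s (K.b e)
  have hin := s.tube_tile e p x he hxp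
    (fun h => hV _ (ball_subset_ball (by linarith) h))
    (fun h => hV _ (ball_subset_ball (by linarith) h))
  -- the edge is in a side of the tile
  have hab := K.ab_dir e
  set m : V := Function.update (K.w (K.a e)) (K.dir e)
    ((K.w (K.a e) (K.dir e) + K.w (K.b e) (K.dir e)) / 2) with hm
  have hmd : m (K.dir e) = (K.w (K.a e) (K.dir e) + K.w (K.b e) (K.dir e)) / 2 := by
    rw [hm, Function.update_self]
  have hme : m ∈ K.edge e := by
    constructor
    · intro i
      by_cases hi : i = K.dir e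
      · subst hi; rw [hmd]; linarith
      · rw [hm, Function.update_of_ne hi]
    · intro i
      by_cases hi : i = K.dir e
      · subst hi; rw [hmd]; linarith
      · rw [hm, Function.update_of_ne hi]; exact (K.ab_off e i hi).le
  obtain ⟨-, k, hkd, hk⟩ := K.edge_tile e p m hme
    (fun h => by have := congrFun h (K.dir e); rw [hmd] at this; linarith)
    (fun h => by have := congrFun h (K.dir e); rw [hmd] at this; linarith) (hin.1 hme)
  have h1 := K.lt p k
  have hself : K.w (K.a e) ∈ closedBall (K.w (K.a e)) (2 * s.r (K.a e)) :=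
    mem_closedBall_self (by linarith)
  have hU := (s.U_tile (K.a e) p _ hself (hin.1 (mem_edge_a e))).2 k
  have h2 := he k
  rw [← K.ab_off e k hkd] at h2
  simp only [hx] at h2
  rcases hk with hk | hk
  · have h3 := hU.2 (by rw [hk]; exact h1.ne)
    rw [hk] at h2 h3
    linarith [h2.1, h2.2, hqle.1]
  · have h3 := hU.1 (by rw [hk]; exact h1.ne')
    rw [hk] at h2 h3
    linarith [h2.1, h2.2, hqle.1]

theorem p_ex (hc : c ∈ Ioo (1/2:ℝ) 1) (hB : s.BasicFacts c) (j : K.T ⊕ K.W ⊕ K.G) :
    ∃ p ∈ s.R c j, p ∉ frontier (s.R c j) ∧ ∀ d, p ∉ s.par c d '' Q0 := by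
  have hc0 : 0 < c := by linarith [hc.1]
  rcases j with p | i | e
  · set x : V := fun k => (K.lo p k + K.hi p k) / 2 with hx
    have hfar := tile_center s p
    have hin : ∀ k, K.lo p k < x k ∧ x k < K.hi p k := by
      intro k; simp only [hx]; constructor <;> linarith [K.lt p k]
    have hxp : x ∈ K.cube p := ⟨fun k => (hin k).1.le, fun k => (hin k).2.le⟩
    have hH : x ∉ s.H c := by
      rw [mem_H]
      rintro (⟨i, hi⟩ | ⟨e, he⟩)
      · have hr := r_pos s i
        exact hfar.1 i (closedBall_subset_ball (by nlinarith [hc.2]) hi)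
      · have hq := q_pos s e
        exact hfar.2 e (nb_mono (by nlinarith [hc.2]) he)
    refine ⟨x, ⟨hxp, fun h => hH (Hin_sub_H s h)⟩, ?_, ?_⟩
    · change x ∉ frontier (s.RT c p)
      rw [hB.frT]
      rintro ⟨-, h | ⟨k, h | h⟩⟩
      · exact hH h.1
      · linarith [(hin k).1]
      · linarith [(hin k).2]
    · rintro (⟨e, β⟩ | t) ⟨y, hy, h⟩
      · have h1 := par_inl_nb s hc e β hy
        rw [h] at h1
        exact hfar.2 e h1
      · have h1 := par_inr_sqo (c := c) s t hy
        rw [h] at h1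
        have h2 := sq_sub_cube t (sqo_sub_sq t h1)
        by_cases hp : p = K.sm t
        · subst hp
          have h3 := (hin (K.nrm t)).2
          rw [(K.s_lev t).1, h1.1] at h3
          exact lt_irrefl _ h3
        · exact K.dis p (K.sm t) hp x hin h2.1
  · have hr := r_pos s i
    have hcr : 0 < c * s.r i := by positivity
    obtain ⟨e₀, he₀⟩ := K.w_edge i
    have hie : K.w i ∈ K.edge e₀ := by
      rcases he₀ with rfl | rfl
      · exact mem_edge_a e₀
      · exact mem_edge_b e₀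
    have hHin : K.w i ∈ s.Hin c := edge_sub_Hin s hc hie
    have hlev : ∀ (e : K.G) (β : Bool), K.w i ∈ K.nb e (2 * s.q e) →
        K.w i (K.dir e) ≠ if β then s.cb e else s.ca e := by
      intro e β he h
      have h1 := lev_bounds s e β
      have ha := r_pos s (K.a e)
      have hb := r_pos s (K.b e)
      have h2 := s.U_edge i e (K.w i) (mem_closedBall_self (by linarith)) he
      rw [← h] at h1
      rcases h2 with rfl | rfl
      · linarith [h1.1]
      · linarith [h1.2]
    refine ⟨K.w i, Or.inl (Or.inl (mem_closedBall_self hcr.le)), ?_, ?_⟩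
    · change K.w i ∉ frontier (s.RV c i)
      rw [hB.frV]
      rintro ⟨-, h | ⟨e, -, hb, h⟩ | ⟨e, -, hb, h⟩⟩
      · exact h.2 hHin
      · exact hlev e false (nb_mono (by nlinarith [hc.2, q_pos s e]) hb) h
      · exact hlev e true (nb_mono (by nlinarith [hc.2, q_pos s e]) hb) h
    · rintro (⟨e, β⟩ | t) ⟨y, hy, h⟩
      · have h1 := par_inl_nb s hc e β hy
        have h2 := par_inl_dir (c := c) s e β y
        rw [h] at h1 h2
        exact hlev e β h1 h2
      · have h1 := par_inr_sqo (c := c) s t hy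
        rw [h] at h1
        exact K.sqo_edge t _ h1.1 h1.2 e₀ hie
  · have ha := r_pos s (K.a e)
    have hb := r_pos s (K.b e)
    have hq := q_pos s e
    have hcc := ca_lt_cb s e
    have hlo : K.w (K.a e) (K.dir e) + 5 / 4 * s.r (K.a e) = s.ca e := rfl
    have hhi : K.w (K.b e) (K.dir e) - 5 / 4 * s.r (K.b e) = s.cb e := rfl
    set x : V := Function.update (K.w (K.a e)) (K.dir e) ((s.ca e + s.cb e) / 2) with hx
    have hxd : x (K.dir e) = (s.ca e + s.cb e) / 2 := by rw [hx, Function.update_self]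
    have hxe : x ∈ K.edge e := by
      constructor
      · intro i
        by_cases hi : i = K.dir e
        · subst hi; rw [hxd]; linarith
        · rw [hx, Function.update_of_ne hi]
      · intro i
        by_cases hi : i = K.dir e
        · subst hi; rw [hxd]; linarith
        · rw [hx, Function.update_of_ne hi]; exact (K.ab_off e i hi).le
    have hmid := mid_tube s (edge_nb hxe (by linarith : (0:ℝ) ≤ 2 * s.q e))
      (by rw [hxd]; linarith) (by rw [hxd]; linarith)
    refine ⟨x, ⟨edge_nb hxe (by positivity), by rw [hxd]; linarith, by rw [hxd]; linarith⟩, ?_, ?_⟩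
    · change x ∉ frontier (s.RG c e)
      rw [hB.frG]
      rintro ⟨-, h | h | h⟩
      · exact h.2 (edge_sub_Hin s hc hxe)
      · rw [hxd] at h; linarith
      · rw [hxd] at h; linarith
    · rintro (⟨e', β⟩ | t) ⟨y, hy, h⟩
      · have h1 := par_inl_nb s hc e' β hy
        have h2 := par_inl_dir (c := c) s e' β y
        rw [h] at h1 h2
        have h3 := hmid.1 e' h1
        subst h3
        rw [hxd] at h2
        cases β
        · simp at h2; linarith
        · simp at h2; linarith
      · have h1 := par_inr_sqo (c := c) s t hy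
        rw [h] at h1
        exact K.sqo_edge t _ h1.1 h1.2 e hxe

end P073.TMD773
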